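import Vale.Agent.P232.Perim.Defs

/-!
# P232: periodic functions and the unit cube
-/

namespace Vale.Agent.P232

open MeasureTheory Set Function
open scoped Pointwise ENNReal

noncomputable section

variable {n : ℕ}

/-- The lattice of integer translations. -/
def lattice (n : ℕ) : AddSubgroup (Fin n → ℝ) :=
  (AddMonoidHom.pi fun i : Fin n =>
    (Int.castAddHom ℝ).comp (Pi.evalAddMonoidHom (fun _ : Fin n => ℤ) i)).range

theorem mem_lattice {x : Fin n → ℝ} : x ∈ lattice n ↔ ∃ k : Fin n → ℤ, x = fun i => (k i : ℝ) := by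
  constructor
  · rintro ⟨k, rfl⟩
    exact ⟨k, rfl⟩
  · rintro ⟨k, rfl⟩
    exact ⟨k, rfl⟩

instance : Countable (lattice n) :=
  Set.Countable.to_subtype (Set.countable_range
    (AddMonoidHom.pi fun i : Fin n =>
      (Int.castAddHom ℝ).comp (Pi.evalAddMonoidHom (fun _ : Fin n => ℤ) i)))

/-- A translate of the unit cube. -/
def cubeAt (t : Fin n → ℝ) : Set (Fin n → ℝ) :=
  Set.pi univ fun i => Ioc (t i - 1 / 2) (t i + 1 / 2)

theorem cubeAt_zero : cubeAt (0 : Fin n → ℝ) = cube n := by
  simp [cubeAt, cube]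

theorem cubeAt_measurable (t : Fin n → ℝ) : MeasurableSet (cubeAt t) :=
  MeasurableSet.univ_pi fun _ => measurableSet_Ioc

theorem cube_measurable : MeasurableSet (cube n) := MeasurableSet.univ_pi fun _ => measurableSet_Ioc

theorem volume_cubeAt (t : Fin n → ℝ) : volume (cubeAt t) = 1 := by
  rw [cubeAt, volume_pi_pi]
  simp only [Real.volume_Ioc]
  ring_nf
  simp

theorem volume_cube : volume (cube n) = 1 := cubeAt_zero (n := n) ▸ volume_cubeAt 0

theorem cube_finite : volume (cube n) ≠ ∞ := by simp [volume_cube]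

instance cubeProb : IsProbabilityMeasure (volume.restrict (cube n)) :=
  ⟨by rw [Measure.restrict_apply_univ, volume_cube]⟩

theorem cubeAt_fundamental (t : Fin n → ℝ) :
    IsAddFundamentalDomain (lattice n) (cubeAt t) volume := by
  refine IsAddFundamentalDomain.mk' (cubeAt_measurable t).nullMeasurableSet fun x => ?_
  have h : ∀ i, ∃! k : ℤ, x i + k • (1 : ℝ) ∈ Ioc (t i - 1 / 2) (t i - 1 / 2 + 1) := fun i =>
    existsUnique_add_zsmul_mem_Ioc one_pos (x i) (t i - 1 / 2)
  choose k hk hk' using h
  refine ⟨⟨fun i => (k i : ℝ), mem_lattice.2 ⟨k, rfl⟩⟩, ?_, ?_⟩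
  · intro i _
    have := hk i
    simp only [zsmul_one, mem_Ioc] at this
    show (k i : ℝ) + x i ∈ _
    constructor <;> linarith [this.1, this.2]
  · rintro ⟨g, hg⟩ hgx
    obtain ⟨l, rfl⟩ := mem_lattice.1 hg
    ext i
    have h' : (l i : ℝ) + x i ∈ Ioc (t i - 1 / 2) (t i + 1 / 2) := hgx i (mem_univ i)
    have : l i = k i := hk' i (l i) (by
      simp only [zsmul_one, mem_Ioc]
      constructor <;> linarith [h'.1, h'.2])
    simp [this]

variable {α : Type*} {f : (Fin n → ℝ) → α}

theorem Periodic.add_int (hf : Periodic f) (i : Fin n) (k : ℤ) (x : Fin n → ℝ) :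
    f (x + Pi.single i (k : ℝ)) = f x := by
  induction k using Int.induction_on with
  | zero => simp
  | succ m ih =>
    rw [show x + Pi.single i ((((m : ℤ) + 1 : ℤ)) : ℝ) = x + Pi.single i ((m : ℤ) : ℝ) + Pi.single i 1
      by rw [add_assoc, ← Pi.single_add]; push_cast; rfl, hf, ih]
  | pred m ih =>
    have h := hf i (x + Pi.single i (((-(m : ℤ) - 1 : ℤ)) : ℝ))
    rw [show x + Pi.single i (((-(m : ℤ) - 1 : ℤ)) : ℝ) + Pi.single i 1
        = x + Pi.single i ((-(m : ℤ) : ℤ) : ℝ) by
        rw [add_assoc, ← Pi.single_add]; push_cast; ring_nf] at h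
    rw [← h, ih]

theorem Periodic.vadd (hf : Periodic f) (g : lattice n) (x : Fin n → ℝ) : f (g +ᵥ x) = f x := by
  obtain ⟨k, hk⟩ := mem_lattice.1 g.2
  show f ((g : Fin n → ℝ) + x) = f x
  rw [hk, add_comm]
  suffices h : ∀ s : Finset (Fin n), f (x + ∑ i ∈ s, Pi.single i (k i : ℝ)) = f x by
    have := h Finset.univ
    rwa [Finset.univ_sum_single] at this
  intro s
  induction s using Finset.induction with
  | empty => simp
  | insert a s ha ih =>
    rw [Finset.sum_insert ha, add_comm (Pi.single a _), ← add_assoc, hf.add_int, ih]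

theorem Periodic.comp_translate (hf : Periodic f) (t : Fin n → ℝ) :
    Periodic fun x => f (x + t) := fun i x => by
  show f (x + Pi.single i 1 + t) = f (x + t)
  rw [add_right_comm, hf]

theorem Periodic.comp_left (hf : Periodic f) {β : Type*} (g : α → β) :
    Periodic fun x => g (f x) := fun i x => congrArg g (hf i x)

theorem Periodic.integral_cubeAt {f : (Fin n → ℝ) → ℝ} (hf : Periodic f) (t : Fin n → ℝ) :
    ∫ x in cubeAt t, f x = ∫ x in cube n, f x := by
  rw [← cubeAt_zero]
  exact (cubeAt_fundamental t).setIntegral_eq (cubeAt_fundamental 0) hf.vadd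

theorem preimage_cubeAt (t : Fin n → ℝ) : (fun x => x + t) ⁻¹' cubeAt t = cube n := by
  ext x
  simp only [cubeAt, cube, mem_preimage, mem_univ_pi, mem_Ioc, Pi.add_apply]
  exact forall_congr' fun i => ⟨fun h => ⟨by linarith [h.1], by linarith [h.2]⟩,
    fun h => ⟨by linarith [h.1], by linarith [h.2]⟩⟩

/-- Integrals of periodic functions over the cube are translation invariant. -/
theorem Periodic.integral_translate {f : (Fin n → ℝ) → ℝ} (hf : Periodic f) (t : Fin n → ℝ) :
    ∫ x in cube n, f (x + t) = ∫ x in cube n, f x := by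
  rw [← hf.integral_cubeAt t, ← preimage_cubeAt t]
  exact (measurePreserving_add_right volume t).setIntegral_preimage_emb
    (Homeomorph.addRight t).measurableEmbedding f (cubeAt t)

/-- Bounded measurable functions are integrable over the cube. -/
theorem integrableOn_cube {f : (Fin n → ℝ) → ℝ} (hm : Measurable f) {C : ℝ} (hC : ∀ x, |f x| ≤ C) :
    IntegrableOn f (cube n) :=
  Integrable.of_bound hm.aestronglyMeasurable C (Filter.Eventually.of_forall fun x => by simpa using hC x)

end

end Vale.Agent.P232
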