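import Vale.Agent.P232.Perim.Polar

/-!
# P232: two compactness principles

Bounded equi-Lipschitz functions have pointwise convergent subsequences, and bounded symmetric
decreasing functions have almost everywhere convergent subsequences.
-/

namespace Vale.Agent.P232

open MeasureTheory Set Function Filter Topology
open scoped NNReal Pointwise

noncomputable section

variable {n : ℕ}

theorem exists_subseq_countable {ι : Type*} [Countable ι] (f : ℕ → ι → ℝ) {B : ℝ}
    (hf : ∀ k i, |f k i| ≤ B) :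
    ∃ φ : ℕ → ℕ, StrictMono φ ∧ ∀ i, ∃ l, Tendsto (fun k => f (φ k) i) atTop (𝓝 l) := by
  have hc : IsCompact (Set.pi univ fun _ : ι => Icc (-B) B) :=
    isCompact_univ_pi fun _ => isCompact_Icc
  obtain ⟨l, -, φ, hφ, hl⟩ := hc.tendsto_subseq (x := f) fun k i _ => abs_le.1 (hf k i)
  exact ⟨φ, hφ, fun i => ⟨l i, tendsto_pi_nhds.1 hl i⟩⟩

theorem lipschitz_subseq (v : ℕ → (Fin n → ℝ) → ℝ) {K : ℝ≥0} {B : ℝ}
    (hv : ∀ k, LipschitzWith K (v k)) (hb : ∀ k x, |v k x| ≤ B) :
    ∃ φ : ℕ → ℕ, StrictMono φ ∧ ∃ w, LipschitzWith K w ∧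
      ∀ x, Tendsto (fun k => v (φ k) x) atTop (𝓝 (w x)) := by
  set d := TopologicalSpace.denseSeq (Fin n → ℝ)
  obtain ⟨φ, hφ, hl⟩ := exists_subseq_countable (fun k i => v k (d i)) fun k i => hb k _
  have hcauchy : ∀ x, CauchySeq fun k => v (φ k) x := by
    intro x
    refine Metric.cauchySeq_iff'.2 fun ε hε => ?_
    obtain ⟨i, hi⟩ := (TopologicalSpace.denseRange_denseSeq (Fin n → ℝ)).exists_dist_lt x
      (show 0 < ε / (4 * (K + 1)) by positivity)
    obtain ⟨l, hl⟩ := hl i
    obtain ⟨N, hN⟩ := Metric.cauchySeq_iff'.1 hl.cauchySeq (ε / 4) (by linarith)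
    refine ⟨N, fun k hk => ?_⟩
    have h1 : ∀ k, dist (v (φ k) x) (v (φ k) (d i)) ≤ ε / 4 := fun k => by
      refine ((hv _).dist_le_mul x (d i)).trans ?_
      calc (K : ℝ) * dist x (d i) ≤ (K + 1) * (ε / (4 * (K + 1))) :=
            mul_le_mul (by linarith) hi.le dist_nonneg (by positivity)
        _ = ε / 4 := by field_simp
    calc dist (v (φ k) x) (v (φ N) x)
        ≤ dist (v (φ k) x) (v (φ k) (d i)) + dist (v (φ k) (d i)) (v (φ N) (d i))
          + dist (v (φ N) (d i)) (v (φ N) x) := dist_triangle4 _ _ _ _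
      _ < ε := by
        have := hN k hk
        have := h1 k
        have := h1 N
        rw [dist_comm (v (φ N) (d i)) (v (φ N) x)]
        linarith
  choose w hw using fun x => cauchySeq_tendsto_of_complete (hcauchy x)
  refine ⟨φ, hφ, w, LipschitzWith.of_dist_le_mul fun x y => ?_, hw⟩
  exact le_of_tendsto' ((hw x).dist (hw y)) fun k => (hv _).dist_le_mul x y

theorem Periodic.of_tendsto {v : ℕ → (Fin n → ℝ) → ℝ} {w : (Fin n → ℝ) → ℝ}
    (hp : ∀ k, Periodic (v k)) (hw : ∀ x, Tendsto (fun k => v k x) atTop (𝓝 (w x))) :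
    Periodic w := fun i x =>
  tendsto_nhds_unique (hw _) (by simpa only [fun k => hp k i x] using hw x)

theorem cos_le_cos_of_abs {s t : ℝ} (h : |s| ≤ |t|) (ht : |t| ≤ 1 / 2) :
    Real.cos (2 * Real.pi * t) ≤ Real.cos (2 * Real.pi * s) := by
  have hp := Real.pi_pos
  rw [← Real.cos_abs (2 * Real.pi * t), ← Real.cos_abs (2 * Real.pi * s)]
  refine Real.cos_le_cos_of_nonneg_of_le_pi (abs_nonneg _) ?_ ?_
  · rw [abs_mul, abs_of_pos (by positivity : (0 : ℝ) < 2 * Real.pi)]
    nlinarith
  · rw [abs_mul (2 * Real.pi), abs_mul (2 * Real.pi)]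
    exact mul_le_mul_of_nonneg_left h (abs_nonneg _)

theorem SymmDecr.mono {u : (Fin n → ℝ) → ℝ} (hu : SymmDecr u) {x y : Fin n → ℝ}
    (h : ∀ i, |y i| ≤ |x i|) (hx : ∀ i, |x i| ≤ 1 / 2) : u x ≤ u y := by
  suffices H : ∀ s : Finset (Fin n), u (fun i => if i ∈ s then x i else y i) ≤ u y by
    simpa using H Finset.univ
  intro s
  induction s using Finset.induction with
  | empty => simp
  | insert a s ha ih =>
    refine le_trans ?_ ih
    have e : (fun i => if i ∈ insert a s then x i else y i)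
        = update (fun i => if i ∈ s then x i else y i) a (x a) := by
      funext i
      rcases eq_or_ne i a with rfl | hi
      · simp
      · simp [hi]
    rw [e]
    refine hu _ a _ ?_
    simp only [if_neg ha]
    exact cos_le_cos_of_abs (h a) (hx a)

theorem exists_rat_between {s t : ℝ} (h : |s| < |t|) : ∃ q : ℚ, |s| < |(q : ℝ)| ∧ |(q : ℝ)| < |t| := by
  obtain ⟨q, h1, h2⟩ := exists_rat_btwn h
  refine ⟨q, ?_, ?_⟩ <;> rw [abs_of_pos (lt_of_le_of_lt (abs_nonneg s) h1)] <;> assumption

/-- Bounded symmetric decreasing functions: almost everywhere convergent subsequences. -/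
theorem symmDecr_subseq (v : ℕ → (Fin n → ℝ) → ℝ) (hm : ∀ k, Measurable (v k))
    (hs : ∀ k, SymmDecr (v k)) (h01 : ∀ k x, v k x ∈ Icc (0 : ℝ) 1) :
    ∃ φ : ℕ → ℕ, StrictMono φ ∧ ∀ᵐ x ∂volume.restrict (cube n),
      ∃ l, Tendsto (fun k => v (φ k) x) atTop (𝓝 l) := by
  have hab : ∀ k x, |v k x| ≤ 1 := fun k x => abs_le.2 ⟨by linarith [(h01 k x).1], (h01 k x).2⟩
  obtain ⟨φ, hφ, hl⟩ := exists_subseq_countable
    (fun k (q : Fin n → ℚ) => v k fun i => (q i : ℝ)) fun k q => hab k _
  refine ⟨φ, hφ, ?_⟩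
  set U : (Fin n → ℝ) → ℝ := fun x => limsup (fun k => v (φ k) x) atTop with hUdef
  set L : (Fin n → ℝ) → ℝ := fun x => liminf (fun k => v (φ k) x) atTop with hLdef
  have hUm : Measurable U := Measurable.limsup fun k => hm _
  have hLm : Measurable L := Measurable.liminf fun k => hm _
  have bdA : ∀ x, IsBoundedUnder (· ≤ ·) atTop fun k => v (φ k) x := fun x =>
    ⟨1, eventually_map.2 (.of_forall fun k => (h01 _ x).2)⟩
  have bdB : ∀ x, IsBoundedUnder (· ≥ ·) atTop fun k => v (φ k) x := fun x =>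
    ⟨0, eventually_map.2 (.of_forall fun k => (h01 _ x).1)⟩
  have hLU : ∀ x, L x ≤ U x := fun x => liminf_le_limsup (bdA x) (bdB x)
  have hU1 : ∀ x, U x ≤ 1 := fun x =>
    limsup_le_of_le (bdB x).isCoboundedUnder_le (.of_forall fun k => (h01 _ x).2)
  have hL0 : ∀ x, 0 ≤ L x := fun x =>
    le_liminf_of_le (bdA x).isCoboundedUnder_ge (.of_forall fun k => (h01 _ x).1)
  have key : ∀ x : Fin n → ℝ, ∀ ε : ℝ, 0 < ε → (∀ i, x i ≠ 0) → (∀ i, |(1 + ε) * x i| ≤ 1 / 2) →
      U ((1 + ε) • x) ≤ L x := by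
    intro x ε hε hx0 hx
    have hlt : ∀ i, |x i| < |(1 + ε) * x i| := fun i => by
      rw [abs_mul, abs_of_pos (by linarith : 0 < 1 + ε)]
      nlinarith [abs_pos.2 (hx0 i)]
    choose q hq1 hq2 using fun i => exists_rat_between (hlt i)
    obtain ⟨l, hl⟩ := hl q
    calc U ((1 + ε) • x) ≤ limsup (fun k => v (φ k) fun i => (q i : ℝ)) atTop :=
          limsup_le_limsup (.of_forall fun k => (hs _).mono (fun i => by simpa using (hq2 i).le)
            fun i => by simpa using hx i) (bdB _).isCoboundedUnder_le (bdA _)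
      _ = l := hl.limsup_eq
      _ = liminf (fun k => v (φ k) fun i => (q i : ℝ)) atTop := hl.liminf_eq.symm
      _ ≤ L x := liminf_le_liminf (.of_forall fun k => (hs _).mono (fun i => (hq1 i).le)
            fun i => ((hq2 i).le.trans (hx i))) (bdB _) (bdA _).isCoboundedUnder_ge
  have hsub : ∀ x, U x - L x ∈ Icc (0 : ℝ) 1 := fun x =>
    ⟨sub_nonneg.2 (hLU x), by linarith [hU1 x, hL0 x]⟩
  have iU : IntegrableOn U (cube n) := integrableOn_cube hUm (C := 1) fun x =>
    abs_le.2 ⟨by linarith [hLU x, hL0 x], hU1 x⟩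
  have iL : IntegrableOn L (cube n) := integrableOn_cube hLm (C := 1) fun x =>
    abs_le.2 ⟨by linarith [hL0 x], (hLU x).trans (hU1 x)⟩
  have hzero : ∫ x in cube n, (U x - L x) ≤ 0 := by
    have main : ∀ ε : ℝ, 0 < ε → ∫ x in cube n, (U x - L x) ≤ 2 * (1 - ((1 + ε) ^ n)⁻¹) := by
      intro ε hε
      have h1 : (0 : ℝ) < 1 + ε := by linarith
      set r : ℝ := (1 + ε)⁻¹
      set S : Set (Fin n → ℝ) := r • cube n
      have hr : 0 < r := inv_pos.2 h1
      have hSm : MeasurableSet S := cube_measurable.const_smul₀ r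
      have hSsub : S ⊆ cube n := by
        rintro _ ⟨y, hy, rfl⟩ i hi
        have := hy i hi
        have hr1 : r ≤ 1 := inv_le_one_of_one_le₀ (by linarith)
        show r * y i ∈ _
        constructor <;> nlinarith [this.1, this.2]
      have hvS : (volume S).toReal = ((1 + ε) ^ n)⁻¹ := by
        rw [Measure.addHaar_smul, volume_cube, Module.finrank_fin_fun, mul_one,
          ENNReal.toReal_ofReal (abs_nonneg _), abs_of_pos (by positivity), inv_pow]
      have hdiff : ∀ f : (Fin n → ℝ) → ℝ, (∀ x, f x ∈ Icc (0 : ℝ) 1) → IntegrableOn f (cube n) →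
          ∫ x in cube n, f x ≤ (∫ x in S, f x) + (1 - ((1 + ε) ^ n)⁻¹) := by
        intro f hf hi
        rw [← integral_inter_add_sdiff hSm hi, inter_eq_right.2 hSsub]
        gcongr
        have hlt : volume (cube n \ S) < ⊤ :=
          (measure_mono sdiff_subset).trans_lt cube_finite.lt_top
        calc ∫ x in cube n \ S, f x ≤ ∫ _ in cube n \ S, (1 : ℝ) :=
              setIntegral_mono (hi.mono_set sdiff_subset) (integrableOn_const hlt.ne) fun x => (hf x).2
          _ = 1 - ((1 + ε) ^ n)⁻¹ := by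
            rw [setIntegral_const, smul_eq_mul, mul_one, measureReal_def,
              measure_sdiff hSsub hSm.nullMeasurableSet (ne_top_of_le_ne_top cube_finite (measure_mono hSsub)),
              ENNReal.toReal_sub_of_le (measure_mono hSsub) cube_finite, hvS, volume_cube]
            simp
      have hscale : ∫ x in S, U ((1 + ε) • x) = ((1 + ε) ^ n)⁻¹ * ∫ x in cube n, U x := by
        rw [Measure.setIntegral_comp_smul_of_pos volume U S h1, Module.finrank_fin_fun, smul_smul,
          mul_inv_cancel₀ h1.ne', one_smul, smul_eq_mul]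
      have : IsFiniteMeasure (volume.restrict S) :=
        isFiniteMeasure_restrict.2 (ne_top_of_le_ne_top cube_finite (measure_mono hSsub))
      have hpt : ∫ x in S, (U x - L x) ≤ ∫ x in S, (U x - U ((1 + ε) • x)) := by
        refine setIntegral_mono_on_ae ((iU.sub iL).mono_set hSsub)
          ((iU.mono_set hSsub).sub ?_) hSm ?_
        · exact Integrable.of_bound (hUm.comp (measurable_const_smul (1 + ε))).aestronglyMeasurable 1
            (.of_forall fun x => by
              rw [Real.norm_eq_abs]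
              exact abs_le.2 ⟨by linarith [hLU ((1 + ε) • x), hL0 ((1 + ε) • x)], hU1 _⟩)
        · have hne : ∀ᵐ x : Fin n → ℝ, ∀ i, x i ≠ 0 := ae_all_iff.2 fun i =>
            (Measure.quasiMeasurePreserving_eval (fun _ : Fin n => (volume : Measure ℝ)) i).ae
              (Measure.ae_ne volume 0)
          filter_upwards [hne] with x hx hxS
          obtain ⟨y, hy, rfl⟩ := hxS
          have := key (r • y) ε hε hx fun i => by
            rw [show (1 + ε) * (r • y) i = y i by simp [r, h1.ne']]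
            have := hy i (mem_univ i)
            exact abs_le.2 ⟨by linarith [this.1], this.2⟩
          linarith
      have iS : IntegrableOn (fun x => U ((1 + ε) • x)) S :=
        Integrable.of_bound (μ := volume.restrict S)
          (hUm.comp (measurable_const_smul (1 + ε))).aestronglyMeasurable 1 (.of_forall fun x => by
            rw [Real.norm_eq_abs]
            exact abs_le.2 ⟨by linarith [hLU ((1 + ε) • x), hL0 ((1 + ε) • x)], hU1 _⟩)
      rw [integral_sub (iU.mono_set hSsub) iS, hscale] at hpt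
      have hle : ∫ x in S, U x ≤ ∫ x in cube n, U x :=
        setIntegral_mono_set iU (.of_forall fun x => (hL0 x).trans (hLU x)) hSsub.eventuallyLE
      have hU1' : ∫ x in cube n, U x ≤ 1 := by
        simpa [volume_cube, measureReal_def] using
          setIntegral_mono iU (integrableOn_const (C := (1 : ℝ)) cube_finite) hU1
      have hc : ((1 + ε) ^ n)⁻¹ ≤ 1 := inv_le_one_of_one_le₀ (one_le_pow₀ (by linarith))
      have := hdiff _ hsub (iU.sub iL)
      have := hle.trans' le_rfl
      nlinarith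
    have hlim : Tendsto (fun ε : ℝ => 2 * (1 - ((1 + ε) ^ n)⁻¹)) (𝓝[>] 0) (𝓝 0) := by
      have : ContinuousAt (fun ε : ℝ => 2 * (1 - ((1 + ε) ^ n)⁻¹)) 0 := by fun_prop (disch := simp)
      simpa using this.tendsto.mono_left nhdsWithin_le_nhds
    exact ge_of_tendsto hlim (eventually_mem_nhdsWithin.mono fun ε hε => main ε hε)
  have hnn : 0 ≤ᵐ[volume.restrict (cube n)] fun x => U x - L x := .of_forall fun x => (hsub x).1
  filter_upwards [(integral_eq_zero_iff_of_nonneg_ae hnn (iU.sub iL)).1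
    (le_antisymm hzero (integral_nonneg_of_ae hnn))] with x hx
  exact ⟨U x, tendsto_of_liminf_eq_limsup (sub_eq_zero.1 hx).symm rfl (bdA x) (bdB x)⟩

end

end Vale.Agent.P232
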