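import Mathlib

/-!
# P232: perimeter on the flat torus

The torus `ℝⁿ / ℤⁿ` is handled through periodic sets and functions on `ℝⁿ`, integrated over the unit
cube. The perimeter is the total variation in the sense of De Giorgi: the supremum of `∫_E div F` over
periodic `C¹` vector fields of euclidean length at most one.
-/

namespace Vale.Agent.P232

open MeasureTheory Set

noncomputable section

variable {n : ℕ}

/-- Invariance under the translations by the coordinate unit vectors. -/
def Periodic {α : Type*} (f : (Fin n → ℝ) → α) : Prop :=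
  ∀ (i : Fin n) (x : Fin n → ℝ), f (x + Pi.single i 1) = f x

/-- The unit cube `(-1/2, 1/2]ⁿ`. -/
def cube (n : ℕ) : Set (Fin n → ℝ) := Set.pi univ fun _ => Ioc (-(1 / 2) : ℝ) (1 / 2)

/-- The divergence. -/
def divergence (F : (Fin n → ℝ) → Fin n → ℝ) (x : Fin n → ℝ) : ℝ :=
  ∑ i, fderiv ℝ (fun y => F y i) x (Pi.single i 1)

/-- A periodic `C¹` field of euclidean length at most one. -/
structure TestField (F : (Fin n → ℝ) → Fin n → ℝ) : Prop where
  contDiff : ContDiff ℝ 1 F
  periodic : Periodic F
  sq_le : ∀ x, ∑ i, F x i ^ 2 ≤ 1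

/-- The perimeter of a periodic set. -/
def perimeter (E : Set (Fin n → ℝ)) : ENNReal :=
  ⨆ (F : (Fin n → ℝ) → Fin n → ℝ) (_ : TestField F),
    ENNReal.ofReal (∫ x in cube n ∩ E, divergence F x)

/-- The total variation is at most `c`. -/
def TVLE (u : (Fin n → ℝ) → ℝ) (c : ℝ) : Prop :=
  ∀ F, TestField F → ∫ x in cube n, u x * divergence F x ≤ c

/-- Symmetric decreasing in every coordinate on the circle. -/
def SymmDecr (u : (Fin n → ℝ) → ℝ) : Prop :=
  ∀ (x : Fin n → ℝ) (j : Fin n) (y : ℝ),
    Real.cos (2 * Real.pi * y) ≤ Real.cos (2 * Real.pi * x j) → u (Function.update x j y) ≤ u x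

end

end Vale.Agent.P232
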