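import Vale.Agent.P232.Perim.Slice

/-!
# P232: calibrations on the period

The slice inequality holds for periodic `β`. Composing any `C¹` function `β` of the period with smooth
periodic approximations of the sawtooth gives the inequality with the boundary term.
-/

namespace Vale.Agent.P232

open MeasureTheory Set Function Filter Topology Real

noncomputable section

/-- The inequality given by slicing: lengths `L`, areas `A`, total variation `c`. -/
def SliceIneq (L A : ℝ → ℝ) (c : ℝ) : Prop :=
  ∀ α β : ℝ → ℝ, Measurable α → ContDiff ℝ 1 β → (∀ z, β (z + 1) = β z) → (∀ z, 0 ≤ α z) →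
    (∀ z, α z ^ 2 + β z ^ 2 ≤ 1) →
    (∫ z in period, α z * L z) + ∫ z in period, deriv β z * A z ≤ c

/-- `a` is the limit at both ends of the period. -/
def EndLimit (A : ℝ → ℝ) (a : ℝ) : Prop :=
  ∀ ε : ℝ, 0 < ε → ∃ η : ℝ, 0 ≤ η ∧ η < 1 / 2 ∧ ∀ x, η < |x| → |x| < 1 / 2 → |A x - a| ≤ ε

theorem period_ae_interior : ∀ᵐ x ∂volume.restrict period, |x| < 1 / 2 := by
  filter_upwards [ae_restrict_mem period_measurable, ae_restrict_of_ae
    (Measure.ae_ne volume (1 / 2 : ℝ))] with x hx hx'
  exact abs_lt.2 ⟨hx.1, lt_of_le_of_ne hx.2 hx'⟩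

/-- An antitone function of `|x|` with values in `[0, 1]` has a limit at the ends. -/
theorem exists_endLimit {A : ℝ → ℝ} (h01 : ∀ x, A x ∈ Icc (0 : ℝ) 1)
    (hA : ∀ x y, |x| ≤ |y| → |y| ≤ 1 / 2 → A y ≤ A x) :
    ∃ a ∈ Icc (0 : ℝ) 1, EndLimit A a ∧ ∀ x, |x| < 1 / 2 → a ≤ A x := by
  set S := A '' Ioo (-(1 / 2) : ℝ) (1 / 2)
  have hne : S.Nonempty := ⟨A 0, 0, by norm_num, rfl⟩
  have hbd : BddBelow S := ⟨0, by rintro _ ⟨x, -, rfl⟩; exact (h01 x).1⟩
  have hle : ∀ x, |x| < 1 / 2 → sInf S ≤ A x := fun x hx => csInf_le hbd ⟨x, abs_lt.1 hx, rfl⟩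
  refine ⟨sInf S, ⟨le_csInf hne ?_, (hle 0 (by norm_num)).trans (h01 0).2⟩, fun ε hε => ?_, hle⟩
  · rintro _ ⟨x, -, rfl⟩; exact (h01 x).1
  · obtain ⟨_, ⟨x₀, hx₀, rfl⟩, h⟩ := exists_lt_of_csInf_lt hne (lt_add_of_pos_right (sInf S) hε)
    refine ⟨|x₀|, abs_nonneg _, abs_lt.2 hx₀, fun x h1 h2 => ?_⟩
    rw [abs_of_nonneg (sub_nonneg.2 (hle x h2))]
    linarith [hA x₀ x h1.le h2.le]

/-- Smooth periodic approximation of the sawtooth. -/
def saw (δ x : ℝ) : ℝ := arctan (sin (2 * π * x) / (1 + δ + cos (2 * π * x))) / π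

/-- The defect of the derivative of the sawtooth approximation (a Poisson kernel). -/
def sawKer (δ x : ℝ) : ℝ :=
  ((1 + δ) ^ 2 - 1) / ((1 + δ + cos (2 * π * x)) ^ 2 + sin (2 * π * x) ^ 2)

variable {δ : ℝ}

theorem saw_den_pos (hδ : 0 < δ) (x : ℝ) : 0 < 1 + δ + cos (2 * π * x) := by
  linarith [neg_one_le_cos (2 * π * x)]

theorem saw_periodic (δ x : ℝ) : saw δ (x + 1) = saw δ x := by
  have e : 2 * π * (x + 1) = 2 * π * x + 2 * π := by ring
  simp only [saw, e, sin_add_two_pi, cos_add_two_pi]

theorem abs_saw_lt (δ x : ℝ) : |saw δ x| < 1 / 2 := by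
  rw [saw, abs_div, abs_of_pos pi_pos, div_lt_iff₀ pi_pos, abs_lt]
  constructor <;>
    linarith [arctan_lt_pi_div_two (sin (2 * π * x) / (1 + δ + cos (2 * π * x))),
      neg_pi_div_two_lt_arctan (sin (2 * π * x) / (1 + δ + cos (2 * π * x)))]

theorem contDiff_saw (hδ : 0 < δ) : ContDiff ℝ 1 (saw δ) := by
  refine (contDiff_arctan.comp (ContDiff.div ?_ ?_ fun x => (saw_den_pos hδ x).ne')).div_const _
  · exact contDiff_sin.comp (contDiff_const.mul contDiff_id)
  · exact contDiff_const.add (contDiff_cos.comp (contDiff_const.mul contDiff_id))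

theorem hasDerivAt_saw (hδ : 0 < δ) (x : ℝ) : HasDerivAt (saw δ) (1 - sawKer δ x) x := by
  have hq := saw_den_pos hδ x
  have h0 : HasDerivAt (fun y : ℝ => 2 * π * y) (2 * π) x := by
    simpa using (hasDerivAt_id x).const_mul (2 * π)
  have h := (((h0.sin).div (h0.cos.const_add (1 + δ)) hq.ne').arctan).div_const π
  refine h.congr_deriv ?_
  · have hD : 0 < (1 + δ + cos (2 * π * x)) ^ 2 + sin (2 * π * x) ^ 2 := by positivity
    have key : (1 + δ + cos (2 * π * x)) ^ 2 + sin (2 * π * x) ^ 2 - ((1 + δ) ^ 2 - 1)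
        = 2 * (cos (2 * π * x) * (1 + δ + cos (2 * π * x)) + sin (2 * π * x) ^ 2) := by
      linear_combination -(sin_sq_add_cos_sq (2 * π * x))
    rw [sawKer, one_sub_div hD.ne', key]
    simp only [Pi.div_apply]
    set S := sin (2 * π * x)
    set C := cos (2 * π * x)
    set q := 1 + δ + C
    rw [show 1 + (S / q) ^ 2 = (q ^ 2 + S ^ 2) / q ^ 2 by field_simp]
    field_simp
    ring

theorem sawKer_nonneg (hδ : 0 < δ) (x : ℝ) : 0 ≤ sawKer δ x :=
  div_nonneg (by nlinarith) (by positivity)

theorem continuous_sawKer (hδ : 0 < δ) : Continuous (sawKer δ) :=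
  continuous_const.div (by fun_prop) fun x => by have := saw_den_pos hδ x; positivity

theorem integral_period {f : ℝ → ℝ} :
    ∫ x in period, f x = ∫ x in (-(1 / 2) : ℝ)..(1 / 2), f x := by
  rw [intervalIntegral.integral_of_le (by norm_num)]; rfl

theorem integrableOn_period {f : ℝ → ℝ} (hf : Continuous f) : IntegrableOn f period :=
  hf.integrableOn_Ioc

theorem integral_deriv_periodic {f : ℝ → ℝ} (hf : ContDiff ℝ 1 f) (hp : ∀ x, f (x + 1) = f x) :
    ∫ x in period, deriv f x = 0 := by
  rw [integral_period, intervalIntegral.integral_deriv_eq_sub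
    (fun x _ => (hf.differentiable one_ne_zero) x)
    ((hf.continuous_deriv le_rfl).intervalIntegrable _ _), sub_eq_zero, ← hp (-(1 / 2))]
  norm_num

theorem integral_sawKer (hδ : 0 < δ) : ∫ x in period, sawKer δ x = 1 := by
  have h := integral_deriv_periodic (contDiff_saw hδ) (saw_periodic δ)
  simp only [fun x => (hasDerivAt_saw hδ x).deriv] at h
  rw [integral_sub (integrableOn_period continuous_const)
    (integrableOn_period (continuous_sawKer hδ))] at h
  simp [measureReal_def] at h
  linarith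

theorem saw_tendsto {x : ℝ} (hx : |x| < 1 / 2) :
    Tendsto (fun k : ℕ => saw (1 / (k + 1)) x) atTop (𝓝 x) := by
  have hπ : |π * x| < π / 2 := by
    rw [abs_mul, abs_of_pos pi_pos]; nlinarith [pi_pos]
  have hc : 0 < cos (π * x) := cos_pos_of_mem_Ioo (abs_lt.1 hπ)
  have e2 : 2 * π * x = 2 * (π * x) := by ring
  have hq : 1 + 0 + cos (2 * π * x) ≠ 0 := by
    rw [e2, cos_two_mul]; nlinarith
  have hcont : ContinuousAt (fun d : ℝ => saw d x) 0 := by
    have hn : ContinuousAt (fun _ : ℝ => sin (2 * π * x)) 0 := continuousAt_const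
    have hde : ContinuousAt (fun d : ℝ => 1 + d + cos (2 * π * x)) 0 :=
      ((continuous_const.add continuous_id).add continuous_const).continuousAt
    have h3 := (continuous_arctan.continuousAt.comp (f := fun d : ℝ =>
      sin (2 * π * x) / (1 + d + cos (2 * π * x))) (hn.div hde hq)).div_const π
    exact h3
  have e : saw 0 x = x := by
    have : sin (2 * π * x) / (1 + 0 + cos (2 * π * x)) = tan (π * x) := by
      rw [e2, sin_two_mul, cos_two_mul, tan_eq_sin_div_cos]
      field_simp
      ring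
    rw [saw, this, arctan_tan (abs_lt.1 hπ).1 (abs_lt.1 hπ).2]
    field_simp
  have := hcont.tendsto.comp tendsto_one_div_add_atTop_nhds_zero_nat
  rwa [e] at this

/-- The slice inequality with the boundary term. -/
theorem SliceIneq.endpoints {L A : ℝ → ℝ} {c a : ℝ} (h : SliceIneq L A c)
    (hL : IntegrableOn L period) (hAm : Measurable A) (hA : ∀ x, A x ∈ Icc (0 : ℝ) 1)
    (ha : a ∈ Icc (0 : ℝ) 1) (hend : EndLimit A a) {β : ℝ → ℝ} (hβ : ContDiff ℝ 1 β)
    (hβ1 : ∀ x, |x| ≤ 1 / 2 → |β x| ≤ 1) :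
    (∫ x in period, Real.sqrt (1 - β x ^ 2) * L x) + ∫ x in period, deriv β x * (A x - a) ≤ c := by
  set d : ℕ → ℝ := fun k => 1 / (k + 1)
  have hd : ∀ k, 0 < d k := fun k => by positivity
  have hd0 : Tendsto d atTop (𝓝 0) := tendsto_one_div_add_atTop_nhds_zero_nat
  have hb' : Continuous (deriv β) := hβ.continuous_deriv le_rfl
  obtain ⟨M, hM⟩ := (isCompact_Icc (a := (-(1 / 2) : ℝ)) (b := 1 / 2)).exists_bound_of_continuousOn
    hb'.continuousOn
  have hM0 : 0 ≤ M := (norm_nonneg _).trans (hM 0 (by norm_num))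
  have hB : ∀ x, |A x - a| ≤ 1 := fun x =>
    abs_le.2 ⟨by linarith [(hA x).1, ha.2], by linarith [(hA x).2, ha.1]⟩
  have hgb : ∀ k x, |deriv β (saw (d k) x)| ≤ M := fun k x => by
    have := abs_lt.1 (abs_saw_lt (d k) x)
    exact (Real.norm_eq_abs _).symm.le.trans (hM _ ⟨this.1.le, this.2.le⟩)
  have hint : ∀ (f : ℝ → ℝ) (C : ℝ), Measurable f → (∀ x, |f x| ≤ C) → IntegrableOn f period :=
    fun f C hf hC => Integrable.of_bound hf.aestronglyMeasurable C
      (.of_forall fun x => by simpa using hC x)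
  set T₁ : ℕ → ℝ := fun k => ∫ x in period, Real.sqrt (1 - β (saw (d k) x) ^ 2) * L x
  set T₂ : ℕ → ℝ := fun k => ∫ x in period, deriv β (saw (d k) x) * (A x - a)
  set T₃ : ℕ → ℝ := fun k => ∫ x in period, sawKer (d k) x * (deriv β (saw (d k) x) * (A x - a))
  have hsaw : ∀ k, Continuous (saw (d k)) := fun k => (contDiff_saw (hd k)).continuous
  have h2i : ∀ k, IntegrableOn (fun x => deriv β (saw (d k) x) * (A x - a)) period := fun k =>
    hint _ (M * 1) (((hb'.comp (hsaw k)).measurable).mul (hAm.sub_const a)) fun x => by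
      rw [abs_mul]; exact mul_le_mul (hgb k x) (hB x) (abs_nonneg _) hM0
  have h3i : ∀ k, IntegrableOn (fun x => sawKer (d k) x * (deriv β (saw (d k) x) * (A x - a))) period := by
    intro k
    refine Integrable.mono' ((integrableOn_period (continuous_sawKer (hd k))).const_mul (M * 1))
      ((continuous_sawKer (hd k)).measurable.mul (((hb'.comp (hsaw k)).measurable).mul
        (hAm.sub_const a))).aestronglyMeasurable (.of_forall fun x => ?_)
    rw [Real.norm_eq_abs, abs_mul, abs_mul, abs_of_nonneg (sawKer_nonneg (hd k) x),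
      mul_comm (M * 1)]
    exact mul_le_mul_of_nonneg_left (mul_le_mul (hgb k x) (hB x) (abs_nonneg _) hM0)
      (sawKer_nonneg (hd k) x)
  have hk : ∀ k, T₁ k + (T₂ k - T₃ k) ≤ c := fun k => by
    have hc1 : ContDiff ℝ 1 (β ∘ saw (d k)) := hβ.comp (contDiff_saw (hd k))
    have hp : ∀ x, (β ∘ saw (d k)) (x + 1) = (β ∘ saw (d k)) x := fun x => congrArg β (saw_periodic _ x)
    have hder : ∀ x, deriv (β ∘ saw (d k)) x = deriv β (saw (d k) x) * (1 - sawKer (d k) x) := fun x =>
      ((((hβ.differentiable one_ne_zero) _).hasDerivAt).comp x (hasDerivAt_saw (hd k) x)).deriv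
    have hs := h (fun x => Real.sqrt (1 - β (saw (d k) x) ^ 2)) (β ∘ saw (d k))
      ((continuous_const.sub ((hβ.continuous.comp (hsaw k)).pow 2)).sqrt.measurable) hc1 hp
      (fun _ => Real.sqrt_nonneg _) fun x => by
        have h1 := (sq_le_one_iff_abs_le_one _).2 (hβ1 _ (abs_saw_lt (d k) x).le)
        rw [Real.sq_sqrt (by linarith), comp_apply]
        linarith
    have hA' : IntegrableOn (fun x => deriv (β ∘ saw (d k)) x * A x) period := by
      obtain ⟨N, hN⟩ := (isCompact_Icc (a := (-(1 / 2) : ℝ)) (b := 1 / 2)).exists_bound_of_continuousOn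
        (hc1.continuous_deriv le_rfl).continuousOn
      refine Integrable.of_bound ((hc1.continuous_deriv le_rfl).measurable.mul hAm).aestronglyMeasurable
        (N * 1) ?_
      filter_upwards [ae_restrict_mem period_measurable] with x hx
      rw [norm_mul]
      exact mul_le_mul (hN x ⟨hx.1.le, hx.2⟩)
        (by rw [Real.norm_eq_abs, abs_of_nonneg (hA x).1]; exact (hA x).2) (norm_nonneg _)
        ((norm_nonneg _).trans (hN 0 (by norm_num)))
    have e : ∫ x in period, deriv (β ∘ saw (d k)) x * A x = T₂ k - T₃ k := by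
      simp only [T₂, T₃]
      rw [← integral_sub (h2i k) (h3i k)]
      have e0 : ∫ x in period, deriv (β ∘ saw (d k)) x * a = 0 := by
        rw [integral_mul_const, integral_deriv_periodic hc1 hp, zero_mul]
      rw [← sub_zero (∫ x in period, deriv (β ∘ saw (d k)) x * A x), ← e0, ← integral_sub hA'
        ((integrableOn_period (hc1.continuous_deriv le_rfl)).mul_const a)]
      refine integral_congr_ae (.of_forall fun x => ?_)
      simp only [hder]
      ring
    rw [e] at hs
    exact hs
  have l1 : Tendsto T₁ atTop (𝓝 (∫ x in period, Real.sqrt (1 - β x ^ 2) * L x)) := by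
    refine tendsto_integral_of_dominated_convergence (fun x => |L x|) (fun k => ?_) hL.abs
      (fun k => ?_) ?_
    · exact ((continuous_const.sub ((hβ.continuous.comp (hsaw k)).pow 2)).sqrt.aestronglyMeasurable).mul
        hL.aestronglyMeasurable
    · refine .of_forall fun x => ?_
      rw [Real.norm_eq_abs, abs_mul, abs_of_nonneg (Real.sqrt_nonneg _)]
      exact mul_le_of_le_one_left (abs_nonneg _)
        ((Real.sqrt_le_iff).2 ⟨zero_le_one, by nlinarith [sq_nonneg (β (saw (d k) x))]⟩)
    · filter_upwards [period_ae_interior] with x hx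
      exact ((((hβ.continuous.tendsto x).comp (saw_tendsto hx)).pow 2).const_sub 1).sqrt.mul_const _
  have l2 : Tendsto T₂ atTop (𝓝 (∫ x in period, deriv β x * (A x - a))) := by
    refine tendsto_integral_of_dominated_convergence (fun _ => M * 1) (fun k => (h2i k).1)
      (integrable_const _) (fun k => .of_forall fun x => ?_) ?_
    · rw [Real.norm_eq_abs, abs_mul]; exact mul_le_mul (hgb k x) (hB x) (abs_nonneg _) hM0
    · filter_upwards [period_ae_interior] with x hx
      exact ((hb'.tendsto x).comp (saw_tendsto hx)).mul_const _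
  have l3 : Tendsto T₃ atTop (𝓝 0) := by
    rw [Metric.tendsto_atTop]
    intro ε hε
    obtain ⟨η, hη0, hη, hηb⟩ := hend (ε / (2 * (M + 1))) (by positivity)
    set κ := 2 + 2 * cos (2 * π * η)
    have hκ : 0 < κ := by
      have := cos_lt_cos_of_nonneg_of_le_pi (x := 2 * π * η) (y := π) (by positivity) le_rfl
        (by nlinarith [pi_pos])
      rw [cos_pi] at this
      simp only [κ]; linarith
    have hlim : Tendsto (fun k => M * ((1 + d k) ^ 2 - 1) / κ) atTop (𝓝 0) := by
      have := (((hd0.const_add 1).pow 2).sub_const 1).const_mul M |>.div_const κ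
      simpa using this
    obtain ⟨N, hN⟩ := Metric.tendsto_atTop.1 hlim (ε / 2) (half_pos hε)
    refine ⟨N, fun k hk => ?_⟩
    have hK0 : 0 ≤ ((1 + d k) ^ 2 - 1) := by nlinarith [hd k]
    have hb : ∀ᵐ x ∂volume.restrict period,
        ‖sawKer (d k) x * (deriv β (saw (d k) x) * (A x - a))‖
          ≤ ε / (2 * (M + 1)) * M * sawKer (d k) x + M * ((1 + d k) ^ 2 - 1) / κ := by
      filter_upwards [period_ae_interior] with x hx
      have hs0 := sawKer_nonneg (hd k) x
      rw [Real.norm_eq_abs, abs_mul, abs_mul, abs_of_nonneg hs0]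
      rcases le_or_gt |x| η with h1 | h1
      · refine le_add_of_nonneg_of_le (by positivity) ?_
        have hD : κ ≤ (1 + d k + cos (2 * π * x)) ^ 2 + sin (2 * π * x) ^ 2 := by
          have hc : cos (2 * π * η) ≤ cos (2 * π * x) := by
            rw [← cos_abs (2 * π * x), abs_mul, abs_of_pos two_pi_pos]
            exact cos_le_cos_of_nonneg_of_le_pi (by positivity) (by nlinarith [pi_pos]) (by gcongr)
          simp only [κ]
          nlinarith [sin_sq_add_cos_sq (2 * π * x), hd k, neg_one_le_cos (2 * π * x)]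
        calc sawKer (d k) x * (|deriv β (saw (d k) x)| * |A x - a|)
            ≤ (((1 + d k) ^ 2 - 1) / κ) * (M * 1) :=
              mul_le_mul (div_le_div_of_nonneg_left hK0 hκ hD)
                (mul_le_mul (hgb k x) (hB x) (abs_nonneg _) hM0) (by positivity) (by positivity)
          _ = M * ((1 + d k) ^ 2 - 1) / κ := by ring
      · refine le_add_of_le_of_nonneg ?_ (by positivity)
        calc sawKer (d k) x * (|deriv β (saw (d k) x)| * |A x - a|)
            ≤ sawKer (d k) x * (M * (ε / (2 * (M + 1)))) :=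
              mul_le_mul_of_nonneg_left (mul_le_mul (hgb k x) (hηb x h1 hx) (abs_nonneg _) hM0) hs0
          _ = ε / (2 * (M + 1)) * M * sawKer (d k) x := by ring
    have hle := norm_integral_le_of_norm_le
      (((integrableOn_period (continuous_sawKer (hd k))).const_mul _).add (integrable_const _)) hb
    simp only [Pi.add_apply] at hle
    rw [integral_add ((integrableOn_period (continuous_sawKer (hd k))).const_mul _)
      (integrable_const _), integral_const_mul, integral_sawKer (hd k)] at hle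
    simp only [integral_const, smul_eq_mul, probReal_univ, one_mul, mul_one] at hle
    have h2 := hN k hk
    rw [Real.dist_eq, sub_zero, abs_of_nonneg (by positivity)] at h2
    have h3 : ε / (2 * (M + 1)) * M ≤ ε / 2 := by
      rw [div_mul_eq_mul_div, div_le_div_iff₀ (by positivity) two_pos]; nlinarith
    rw [dist_zero_right]
    exact hle.trans_lt (by linarith)
  have := le_of_tendsto_of_tendsto' (l1.add (l2.sub l3)) tendsto_const_nhds hk
  simpa using this

end

end Vale.Agent.P232
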