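import Vale.Agent.P232.Perim.Period

/-!
# P232: symmetric decreasing sets of the flat two-torus

A calibration inequality on the lines, the bounds for boxed, striped and complementary slices, and the
isoperimetric inequality of the torus for these sets.
-/

namespace Vale.Agent.P232

open MeasureTheory Set Function Filter Topology Real

noncomputable section

theorem period_abs {t : ℝ} (ht : t ∈ period) : |t| ≤ 1 / 2 :=
  abs_le.2 ⟨ht.1.le, ht.2⟩

theorem cos_two_pi_le {s t : ℝ} (h1 : |s| ≤ |t|) (h2 : |t| ≤ 1 / 2) :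
    cos (2 * π * t) ≤ cos (2 * π * s) := by
  rw [← cos_abs (2 * π * t), ← cos_abs (2 * π * s), abs_mul (2 * π) t, abs_mul (2 * π) s,
    abs_of_pos two_pi_pos]
  exact cos_le_cos_of_nonneg_of_le_pi (by positivity) (by nlinarith [pi_pos]) (by gcongr)

theorem integral_cube_zero (f : (Fin 0 → ℝ) → ℝ) (y₀ : Fin 0 → ℝ) : ∫ y in cube 0, f y = f y₀ := by
  have : ∀ y, f y = f y₀ := fun y => congrArg f (Subsingleton.elim y y₀)
  simp only [this, integral_const, smul_eq_mul, measureReal_def, Measure.restrict_apply_univ,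
    volume_cube, ENNReal.toReal_one, one_mul]

/-- Integrals over the one-dimensional cube. -/
theorem integral_cube_one {f : (Fin 1 → ℝ) → ℝ} (hf : IntegrableOn f (cube 1)) :
    ∫ y in cube 1, f y = ∫ t in period, f (fun _ => t) := by
  rw [(integral_cube_succ hf 0).1]
  refine integral_congr_ae (.of_forall fun t => ?_)
  dsimp only
  rw [integral_cube_zero _ 0]
  exact congrArg f (funext fun j => by rw [Subsingleton.elim (α := Fin 1) j 0, splice_same])

theorem measurable_const_pi : Measurable fun (t : ℝ) (_ : Fin 1) => t :=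
  measurable_pi_lambda _ fun _ => measurable_id

/-- A symmetric decreasing set of the circle is an interval of length `l` about the origin. -/
theorem line_structure {S : Set (Fin 1 → ℝ)} (hS : MeasurableSet S)
    (hsym : SymmDecr (S.indicator fun _ => (1 : ℝ))) (t₀ : ℝ) (ht₀ : t₀ ∈ period) :
    ((fun _ => t₀) ∈ S → 2 * |t₀| ≤ ∫ y in cube 1, S.indicator (fun _ => (1 : ℝ)) y) ∧
      ((fun _ => t₀) ∉ S → ∫ y in cube 1, S.indicator (fun _ => (1 : ℝ)) y ≤ 2 * |t₀|) := by
  set l := ∫ y in cube 1, S.indicator (fun _ => (1 : ℝ)) y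
  set T : Set ℝ := (fun (t : ℝ) (_ : Fin 1) => t) ⁻¹' S
  have hT : MeasurableSet T := measurable_const_pi hS
  have hl : l = volume.real (period ∩ T) := by
    simp only [l]
    rw [integral_cube_one (integrableOn_cube (measurable_const.indicator hS) (C := 1) fun x => by
      by_cases hx : x ∈ S <;> simp [hx])]
    rw [show (fun t : ℝ => S.indicator (fun _ => (1 : ℝ)) fun _ => t) = T.indicator fun _ => (1 : ℝ)
      from rfl, setIntegral_indicator hT, setIntegral_const, smul_eq_mul, mul_one]
  have mono : ∀ s t : ℝ, |s| ≤ |t| → |t| ≤ 1 / 2 → t ∈ T → s ∈ T := by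
    intro s t hst ht hmem
    by_contra hs
    have h := hsym (fun _ => s) 0 t (cos_two_pi_le hst ht)
    have e : update (fun _ : Fin 1 => s) 0 t = fun _ => t := funext fun j => by
      rw [Subsingleton.elim j 0, update_self]
    rw [e, indicator_of_mem (show (fun _ : Fin 1 => t) ∈ S from hmem),
      indicator_of_notMem (show (fun _ : Fin 1 => s) ∉ S from hs)] at h
    linarith
  have hfin : volume period ≠ ⊤ := by simp [volume_period]
  have hin : ∀ t ∈ period, t ∈ T → 2 * |t| ≤ l := fun t ht hmem => by
    rw [hl, show 2 * |t| = volume.real (Ioc (-|t|) |t|) by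
      rw [Real.volume_real_Ioc_of_le (by linarith [abs_nonneg t])]; ring]
    refine measureReal_mono (fun s hs => ⟨⟨?_, hs.2.trans (period_abs ht)⟩,
      mono s t (abs_le.2 ⟨hs.1.le, hs.2⟩) (period_abs ht) hmem⟩)
      (measure_ne_top_of_subset inter_subset_left hfin)
    linarith [hs.1, period_abs ht]
  have hout : ∀ t ∈ period, t ∉ T → l ≤ 2 * |t| := fun t ht hmem => by
    rw [hl, show 2 * |t| = volume.real (Icc (-|t|) |t|) by
      rw [Real.volume_real_Icc_of_le (by linarith [abs_nonneg t])]; ring]
    refine measureReal_mono (fun s hs => ?_) (by simp)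
    refine abs_le.1 (le_of_lt ?_)
    by_contra h
    exact hmem (mono t s (not_lt.1 h) (period_abs hs.1) hs.2)
  exact ⟨hin t₀ ht₀, hout t₀ ht₀⟩

/-- A symmetric decreasing set of the circle which is neither null nor full has variation at least 2. -/
theorem two_le_of_line {S : Set (Fin 1 → ℝ)} (hS : MeasurableSet S)
    (hsym : SymmDecr (S.indicator fun _ => (1 : ℝ))) {L : ℝ}
    (hL : TVLE (S.indicator fun _ => 1) L)
    (h0 : 0 < ∫ y in cube 1, S.indicator (fun _ => (1 : ℝ)) y)
    (h1 : ∫ y in cube 1, S.indicator (fun _ => (1 : ℝ)) y < 1) : 2 ≤ L := by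
  set l := ∫ y in cube 1, S.indicator (fun _ => (1 : ℝ)) y
  set T : Set ℝ := (fun (t : ℝ) (_ : Fin 1) => t) ⁻¹' S
  have hT : MeasurableSet T := measurable_const_pi hS
  have hl : l = volume.real (period ∩ T) := by
    simp only [l]
    rw [integral_cube_one (integrableOn_cube (measurable_const.indicator hS) (C := 1) fun x => by
      by_cases hx : x ∈ S <;> simp [hx])]
    rw [show (fun t : ℝ => S.indicator (fun _ => (1 : ℝ)) fun _ => t) = T.indicator fun _ => (1 : ℝ)
      from rfl, setIntegral_indicator hT, setIntegral_const, smul_eq_mul, mul_one]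
  obtain ⟨hin, hout⟩ := And.intro (fun t ht hm => (line_structure hS hsym t ht).1 hm)
    (fun t ht hm => (line_structure hS hsym t ht).2 hm)
  have hae : (period ∩ T : Set ℝ) =ᵐ[volume] Ioc (-(l / 2)) (l / 2) := by
    rw [Filter.eventuallyEq_set]
    filter_upwards [Measure.ae_ne volume (l / 2), Measure.ae_ne volume (-(l / 2))] with t ht1 ht2
    refine ⟨fun ⟨hp, hmem⟩ => ?_, fun ⟨hl1, hl2⟩ => ?_⟩
    · have := abs_le.1 (show |t| ≤ l / 2 by linarith [hin t hp hmem])
      exact ⟨lt_of_le_of_ne this.1 (Ne.symm ht2), this.2⟩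
    · have hp : t ∈ period := ⟨by linarith, by linarith⟩
      refine ⟨hp, ?_⟩
      by_contra hmem
      have h2 := hout t hp hmem
      have h3 : |t| < l / 2 := abs_lt.2 ⟨hl1, lt_of_le_of_ne hl2 ht1⟩
      linarith
  set s := sin (π * l)
  have hs : 0 < s := sin_pos_of_pos_of_lt_pi (mul_pos pi_pos h0) (by nlinarith [pi_pos])
  set φ : ℝ → ℝ := fun t => 2 * s * sin (2 * π * t) / (s ^ 2 + sin (2 * π * t) ^ 2)
  have hφd : ∀ t, 0 < s ^ 2 + sin (2 * π * t) ^ 2 := fun t => by positivity
  have hsin : ContDiff ℝ 1 fun t : ℝ => sin (2 * π * t) :=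
    contDiff_sin.comp (contDiff_const.mul contDiff_id)
  have hφ : ContDiff ℝ 1 φ :=
    (contDiff_const.mul hsin).div (contDiff_const.add (hsin.pow 2)) fun t => (hφd t).ne'
  set F : (Fin 1 → ℝ) → Fin 1 → ℝ := fun y _ => φ (y 0)
  have hF : TestField F := by
    refine ⟨contDiff_pi.2 fun _ => hφ.comp (contDiff_apply ℝ ℝ 0), fun i x => funext fun _ => ?_,
      fun x => ?_⟩
    · simp only [F, φ, Subsingleton.elim i 0, Pi.add_apply, Pi.single_eq_same,
        mul_add, mul_one, sin_add_two_pi]
    · simp only [F, φ, Fin.sum_univ_one, div_pow]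
      rw [div_le_one (pow_pos (hφd _) 2)]
      nlinarith [sq_nonneg (s ^ 2 - sin (2 * π * x 0) ^ 2)]
  have hdiv : ∀ y, divergence F y = deriv φ (y 0) := fun y => by
    have h1 : HasFDerivAt (fun z : Fin 1 → ℝ => φ (z 0))
        (deriv φ (y 0) • (ContinuousLinearMap.proj 0 : (Fin 1 → ℝ) →L[ℝ] ℝ)) y :=
      HasDerivAt.comp_hasFDerivAt (h₂ := φ) y ((hφ.differentiable one_ne_zero) (y 0)).hasDerivAt
        (hasFDerivAt_apply (𝕜 := ℝ) (F' := fun _ : Fin 1 => ℝ) 0 y)
    simp only [divergence, Fin.sum_univ_one, F, h1.fderiv]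
    simp
  have hval : ∫ y in cube 1, S.indicator (fun _ => (1 : ℝ)) y * divergence F y = 2 := by
    obtain ⟨C, hC⟩ := hF.divergence_bound
    rw [integral_cube_one (integrableOn_cube (f := fun y => S.indicator (fun _ => (1 : ℝ)) y * divergence F y)
      ((measurable_const.indicator hS).mul (divergence_measurable F)) (C := 1 * C) fun x => by
        rw [abs_mul]
        exact mul_le_mul (by by_cases hx : x ∈ S <;> simp [hx]) (hC x) (abs_nonneg _) zero_le_one)]
    have e : (fun t : ℝ => S.indicator (fun _ => (1 : ℝ)) (fun _ => t) * divergence F fun _ => t)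
        = T.indicator (deriv φ) := funext fun t => by
      simp only [hdiv]
      by_cases ht : t ∈ T
      · rw [indicator_of_mem ht, indicator_of_mem (show (fun _ : Fin 1 => t) ∈ S from ht), one_mul]
      · rw [indicator_of_notMem ht, indicator_of_notMem (show (fun _ : Fin 1 => t) ∉ S from ht),
          zero_mul]
    rw [e, setIntegral_indicator hT, setIntegral_congr_set hae,
      ← intervalIntegral.integral_of_le (by linarith), intervalIntegral.integral_deriv_eq_sub
      (fun x _ => (hφ.differentiable one_ne_zero) x)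
      ((hφ.continuous_deriv le_rfl).intervalIntegrable _ _)]
    have e1 : 2 * π * (l / 2) = π * l := by ring
    simp only [φ, mul_neg, sin_neg, e1]
    field_simp [hs.ne']
    ring
  exact hval ▸ hL F hF

/-- Measure of the line at height `x` in direction `i`. -/
def lineLen (E : Set (Fin 2 → ℝ)) (i : Fin 2) (x : ℝ) : ℝ :=
  ∫ y in cube 1, slice (E.indicator fun _ => (1 : ℝ)) i x y

/-- Area of a set of the torus. -/
def area (E : Set (Fin 2 → ℝ)) : ℝ := ∫ y in cube 2, E.indicator (fun _ => (1 : ℝ)) y

/-- A planar slice: periodic, symmetric decreasing, of variation at most `c`. -/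
structure PlanarSet (E : Set (Fin 2 → ℝ)) (c : ℝ) : Prop where
  meas : MeasurableSet E
  periodic : Periodic fun x => x ∈ E
  symm : SymmDecr (E.indicator fun _ => (1 : ℝ))
  tv : TVLE (E.indicator fun _ => (1 : ℝ)) c

variable {E : Set (Fin 2 → ℝ)} {c a : ℝ} {i : Fin 2}

theorem lineLen_mem (x : ℝ) : lineLen E i x ∈ Icc (0 : ℝ) 1 := by
  refine ⟨integral_nonneg fun y => indicator_nonneg (fun _ _ => zero_le_one) _, ?_⟩
  refine (integral_mono_of_nonneg (.of_forall fun y => indicator_nonneg (fun _ _ => zero_le_one) _)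
    (integrable_const 1) (.of_forall fun y => indicator_le_self' (fun _ _ => zero_le_one) _)).trans ?_
  simp [measureReal_def]

theorem measurable_lineLen (hE : MeasurableSet E) (i : Fin 2) : Measurable (lineLen E i) :=
  (StronglyMeasurable.integral_prod_right (f := fun z y => slice (E.indicator fun _ => (1 : ℝ)) i z y)
    ((measurable_const.indicator hE).comp (splice_preserving i).measurable).stronglyMeasurable).measurable

theorem lineLen_antitone (h : PlanarSet E c) (x y : ℝ) (hxy : |x| ≤ |y|) (hy : |y| ≤ 1 / 2) :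
    lineLen E i y ≤ lineLen E i x := by
  refine integral_mono_of_nonneg (.of_forall fun z => indicator_nonneg (fun _ _ => zero_le_one) _)
    (integrableOn_cube ((measurable_const.indicator h.meas).comp
      ((splice_preserving i).measurable.comp measurable_prodMk_left)) (C := 1) fun z => ?_)
    (.of_forall fun z => ?_)
  · by_cases hz : splice i x z ∈ E <;> simp [slice, hz]
  · have hc := h.symm (splice i x z) i y (by rw [splice_same]; exact cos_two_pi_le hxy hy)
    have e : update (splice i x z) i y = splice i y z := funext fun j => by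
      refine i.succAboveCases ?_ (fun k => ?_) j
      · rw [update_self, splice_same]
      · rw [update_of_ne (Fin.succAbove_ne i k), splice_above, splice_above]
    rwa [e] at hc

theorem integral_lineLen (hE : MeasurableSet E) (i : Fin 2) :
    ∫ x in period, lineLen E i x = area E :=
  ((integral_cube_succ (integrableOn_cube (measurable_const.indicator hE) (C := 1) fun x => by
    by_cases hx : x ∈ E <;> simp [hx]) i).1).symm

theorem area_mem (hE : MeasurableSet E) : area E ∈ Icc (0 : ℝ) 1 := by
  rw [← integral_lineLen hE 0]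
  refine ⟨integral_nonneg fun x => (lineLen_mem x).1, (integral_mono_of_nonneg
    (.of_forall fun x => (lineLen_mem x).1) (integrable_const 1)
    (.of_forall fun x => (lineLen_mem x).2)).trans ?_⟩
  simp

/-- The set of heights of the lines which are neither empty nor full. -/
def partLines (E : Set (Fin 2 → ℝ)) (i : Fin 2) : Set ℝ := lineLen E i ⁻¹' Ioo 0 1

/-- The calibration inequality on lines. -/
theorem PlanarSet.calibration (h : PlanarSet E c) (ha : a ∈ Icc (0 : ℝ) 1)
    (hend : EndLimit (lineLen E i) a) {β : ℝ → ℝ} (hβ : ContDiff ℝ 1 β)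
    (hβ1 : ∀ x, |x| ≤ 1 / 2 → |β x| ≤ 1) :
    2 * (∫ x in period, (partLines E i).indicator (fun x => √(1 - β x ^ 2)) x)
      + ∫ x in period, deriv β x * (lineLen E i x - a) ≤ c := by
  obtain ⟨L, hL0, hLm, hLi, hLtv, hI⟩ := exists_slice_bound h.meas h.periodic h.tv i
  have hm := measurable_lineLen h.meas i
  have hP : MeasurableSet (partLines E i) := hm measurableSet_Ioo
  have hS : SliceIneq L (lineLen E i) c := hI
  refine le_trans (add_le_add_left ?_ _)
    (hS.endpoints hLi hm lineLen_mem ha hend hβ hβ1)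
  have hw : Continuous fun x => √(1 - β x ^ 2) := (continuous_const.sub (hβ.continuous.pow 2)).sqrt
  rw [← integral_const_mul]
  refine integral_mono_ae (((integrableOn_period hw).indicator hP).const_mul 2) ?_ ?_
  · refine hLi.abs.mono' (hw.measurable.mul hLm).aestronglyMeasurable (.of_forall fun x => ?_)
    rw [Real.norm_eq_abs, abs_mul, abs_of_nonneg (Real.sqrt_nonneg _)]
    exact mul_le_of_le_one_left (abs_nonneg _)
      (Real.sqrt_le_iff.2 ⟨zero_le_one, by nlinarith [sq_nonneg (β x)]⟩)
  · filter_upwards [hLtv] with x hx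
    by_cases hp : x ∈ partLines E i
    · rw [indicator_of_mem hp, mul_comm]
      refine mul_le_mul_of_nonneg_left ?_ (Real.sqrt_nonneg _)
      have hmS : MeasurableSet (splice i x ⁻¹' E) :=
        ((splice_preserving i).measurable.comp measurable_prodMk_left) h.meas
      exact two_le_of_line hmS (h.symm.slice x) hx hp.1 hp.2
    · rw [indicator_of_notMem hp, mul_zero]
      exact mul_nonneg (Real.sqrt_nonneg _) (hL0 x)

/-- Stripe: all lines partial. With trace `a` at the ends and slope `k`. -/
theorem PlanarSet.stripe (h : PlanarSet E c) (ha : a ∈ Icc (0 : ℝ) 1)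
    (hend : EndLimit (lineLen E i) a)
    (hp : ∀ᵐ x ∂volume.restrict period, x ∈ partLines E i) {k : ℝ} (hk : |k| ≤ 2) :
    2 * (∫ x in period, √(1 - (k * x) ^ 2)) + k * (area E - a) ≤ c := by
  have hc := h.calibration ha hend (β := fun x => k * x) (contDiff_const.mul contDiff_id) fun x hx => by
    rw [abs_mul]; nlinarith [abs_nonneg k, abs_nonneg x]
  rw [show deriv (fun x : ℝ => k * x) = fun _ => k from funext fun x => by simp,
    integral_const_mul, integral_sub (Integrable.of_bound (measurable_lineLen h.meas i).aestronglyMeasurable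
      1 (.of_forall fun x => by
        rw [Real.norm_eq_abs, abs_of_nonneg (lineLen_mem x).1]; exact (lineLen_mem x).2))
      (integrable_const a), integral_lineLen h.meas] at hc
  simp only [integral_const, probReal_univ, one_smul] at hc
  refine le_trans (le_of_eq ?_) hc
  congr 2
  exact integral_congr_ae (hp.mono fun x hx => (indicator_of_mem hx fun x => √(1 - (k * x) ^ 2)).symm)

/-- Stripe: the length is at least two. -/
theorem PlanarSet.two_le (h : PlanarSet E c)
    (hp : ∀ᵐ x ∂volume.restrict period, x ∈ partLines E i) : 2 ≤ c := by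
  obtain ⟨a, ha, hend, -⟩ := exists_endLimit (lineLen_mem (E := E) (i := i)) (lineLen_antitone h)
  simpa using h.stripe ha hend hp (k := 0) (by norm_num)

/-- A slope on `[-X, X]` continued inside `[-1, 1]`. -/
theorem exists_slope {X R : ℝ} (hX : 0 ≤ X) (hR : X < R) :
    ∃ β : ℝ → ℝ, ContDiff ℝ 1 β ∧ (∀ x, |β x| ≤ 1) ∧
      ∀ x, |x| ≤ X → β x = x / R ∧ deriv β x = 1 / R := by
  have hR0 : 0 < R := hX.trans_lt hR
  set b : ℝ → ℝ := fun t => max 0 (min 1 ((R - |t|) / (R - X))) / R
  have hb : Continuous b := (continuous_const.max (continuous_const.min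
    ((continuous_const.sub continuous_abs).div_const _))).div_const _
  have hb1 : ∀ t, |t| ≤ X → b t = 1 / R := fun t ht => by
    simp only [b]
    rw [min_eq_left ((one_le_div (sub_pos.2 hR)).2 (by linarith)), max_eq_right zero_le_one]
  have hb0 : ∀ t, R ≤ |t| → b t = 0 := fun t ht => by
    simp only [b]
    rw [max_eq_left ((min_le_right _ _).trans
      (div_nonpos_of_nonpos_of_nonneg (by linarith) (sub_nonneg.2 hR.le))), zero_div]
  have hbR : ∀ t, ‖b t‖ ≤ 1 / R := fun t => by
    simp only [b, Real.norm_eq_abs, abs_div, abs_of_nonneg (le_max_left (0 : ℝ) _), abs_of_pos hR0]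
    gcongr
    exact max_le zero_le_one (min_le_left _ _)
  set β : ℝ → ℝ := fun x => ∫ t in (0 : ℝ)..x, b t
  have hβd : ∀ x, HasDerivAt β (b x) x := fun x => (hb.integral_hasStrictDerivAt 0 x).hasDerivAt
  have hβ' : deriv β = b := funext fun x => (hβd x).deriv
  have hii : ∀ p q : ℝ, IntervalIntegrable b volume p q := fun p q => hb.intervalIntegrable p q
  refine ⟨β, contDiff_one_iff_deriv.2 ⟨fun x => (hβd x).differentiableAt, hβ' ▸ hb⟩, fun x => ?_,
    fun x hx => ⟨?_, by rw [hβ']; exact hb1 x hx⟩⟩
  · have hle : ∀ p q : ℝ, |q - p| ≤ R → |∫ t in p..q, b t| ≤ 1 := fun p q hpq => by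
      refine le_trans (intervalIntegral.norm_integral_le_of_norm_le_const fun t _ => hbR t) ?_
      rw [one_div_mul_eq_div, div_le_one hR0]
      exact hpq
    rcases le_or_gt |x| R with h | h
    · exact hle 0 x (by simpa using h)
    · rcases le_or_gt 0 x with h' | h'
      · rw [abs_of_nonneg h'] at h
        simp only [β]
        rw [← intervalIntegral.integral_add_adjacent_intervals (hii 0 R) (hii R x),
          intervalIntegral.integral_congr (g := fun _ => (0 : ℝ)) (fun t ht => ?_) (a := R),
          intervalIntegral.integral_zero, add_zero]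
        · exact hle 0 R (by simp [abs_of_pos hR0])
        · rw [uIcc_of_le h.le] at ht
          exact hb0 t (ht.1.trans (le_abs_self t))
      · rw [abs_of_neg h'] at h
        simp only [β]
        rw [← intervalIntegral.integral_add_adjacent_intervals (hii 0 (-R)) (hii (-R) x),
          intervalIntegral.integral_congr (g := fun _ => (0 : ℝ)) (fun t ht => ?_) (a := -R),
          intervalIntegral.integral_zero, add_zero]
        · exact hle 0 (-R) (by simp [abs_of_pos hR0])
        · rw [uIcc_of_ge (by linarith)] at ht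
          exact hb0 t (le_trans (by linarith [ht.2]) (neg_le_abs t))
  · simp only [β]
    rw [intervalIntegral.integral_congr (g := fun _ => 1 / R) fun t ht => ?_,
      intervalIntegral.integral_const, smul_eq_mul, sub_zero, mul_one_div]
    refine hb1 t (le_trans ?_ hx)
    rcases le_total 0 x with h | h
    · rw [uIcc_of_le h] at ht; rw [abs_of_nonneg h, abs_of_nonneg ht.1]; exact ht.2
    · rw [uIcc_of_ge h] at ht; rw [abs_of_nonpos h, abs_of_nonpos ht.2]; linarith [ht.1]

/-- Boxed slice containing the trace extent `P`, inside `|x| ≤ X`: arcs of every radius `R ≥ X`. -/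
theorem PlanarSet.boxed (h : PlanarSet E c) {P X R : ℝ} (hP : 0 ≤ P) (hPX : P ≤ X) (hX : 0 < X)
    (hX2 : X ≤ 1 / 2) (hXR : X ≤ R) (hend : EndLimit (lineLen E i) 0)
    (hlt : ∀ᵐ x ∂volume.restrict period, lineLen E i x < 1)
    (hout : ∀ x, X < |x| → |x| < 1 / 2 → lineLen E i x = 0)
    (hin : ∀ x, |x| < P → 0 < lineLen E i x) :
    4 * (∫ x in (0 : ℝ)..P, √(1 - (x / R) ^ 2)) + area E / R ≤ c := by
  set A := area E
  -- a calibration with derivative `1 / R` where the set lives
  have key : ∀ (R : ℝ) (β : ℝ → ℝ), ContDiff ℝ 1 β → (∀ x, |x| ≤ 1 / 2 → |β x| ≤ 1) →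
      (∀ x, |x| ≤ X → β x = x / R ∧ deriv β x = 1 / R) →
      4 * (∫ x in (0 : ℝ)..P, √(1 - (x / R) ^ 2)) + A / R ≤ c := by
    intro R β hβ hβ1 hβX
    have hc := h.calibration ⟨le_rfl, zero_le_one⟩ hend hβ hβ1
    have e2 : ∫ x in period, deriv β x * (lineLen E i x - 0) = A / R := by
      rw [show A / R = ∫ x in period, 1 / R * lineLen E i x by
        rw [integral_const_mul, integral_lineLen h.meas, one_div_mul_eq_div]]
      refine integral_congr_ae ?_
      filter_upwards [period_ae_interior] with x hx
      rcases le_or_gt |x| X with hxX | hxX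
      · rw [(hβX x hxX).2, sub_zero]
      · rw [hout x hxX hx]; ring
    rw [e2] at hc
    refine le_trans (add_le_add_left ?_ _) hc
    have hg : Continuous fun x : ℝ => √(1 - (x / R) ^ 2) := by fun_prop
    have hsub : Ioo (-P) P ⊆ period := fun x hx => ⟨by linarith [hx.1], by linarith [hx.2]⟩
    have e4 : 4 * (∫ x in (0 : ℝ)..P, √(1 - (x / R) ^ 2))
        = 2 * ∫ x in period, (Ioo (-P) P).indicator (fun x => √(1 - (x / R) ^ 2)) x := by
      rw [setIntegral_indicator measurableSet_Ioo, inter_eq_right.2 hsub, ← integral_Ioc_eq_integral_Ioo,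
        ← intervalIntegral.integral_of_le (by linarith),
        ← intervalIntegral.integral_add_adjacent_intervals (hg.intervalIntegrable (-P) 0)
          (hg.intervalIntegrable 0 P)]
      have hneg := intervalIntegral.integral_comp_neg (a := 0) (b := P)
        (fun x : ℝ => √(1 - (x / R) ^ 2))
      simp only [neg_zero, neg_div, neg_sq] at hneg
      rw [← hneg]
      ring
    rw [e4]
    refine mul_le_mul_of_nonneg_left (integral_mono_ae
      ((integrableOn_period hg).indicator measurableSet_Ioo)
      ((integrableOn_period (continuous_const.sub (hβ.continuous.pow 2)).sqrt).indicator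
        ((measurable_lineLen h.meas i) measurableSet_Ioo)) ?_) zero_le_two
    filter_upwards [hlt] with x hx
    by_cases hxP : x ∈ Ioo (-P) P
    · have hxa : |x| < P := abs_lt.2 hxP
      have hmem : x ∈ partLines E i := ⟨hin x hxa, hx⟩
      rw [indicator_of_mem hxP, indicator_of_mem hmem, (hβX x (hxa.le.trans hPX)).1]
    · rw [indicator_of_notMem hxP]
      exact indicator_nonneg (fun _ _ => Real.sqrt_nonneg _) _
  rcases le_or_gt (1 / 2 : ℝ) R with hR2 | hR2
  · refine key R (fun x => x / R) (contDiff_id.div_const R) (fun x hx => ?_)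
      fun x _ => ⟨rfl, by simp⟩
    rw [abs_div, abs_of_pos (show 0 < R by linarith), div_le_one (by linarith)]
    linarith
  · have hR0 : 0 < R := hX.trans_le hXR
    have hlim : ∀ R' : ℝ, R < R' → 4 * (∫ x in (0 : ℝ)..P, √(1 - (x / R) ^ 2)) + A / R' ≤ c := by
      intro R' hR'
      obtain ⟨β, hβ, hβ1, hβX⟩ := exists_slope hX.le (hXR.trans_lt hR')
      refine le_trans (add_le_add_left ?_ _) (key R' β hβ (fun x _ => hβ1 x) hβX)
      refine mul_le_mul_of_nonneg_left (intervalIntegral.integral_mono_on hP
        ((by fun_prop : Continuous fun x : ℝ => √(1 - (x / R) ^ 2)).intervalIntegrable _ _)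
        ((by fun_prop : Continuous fun x : ℝ => √(1 - (x / R') ^ 2)).intervalIntegrable _ _)
        fun x hx => Real.sqrt_le_sqrt (sub_le_sub_left ?_ 1)) (by norm_num)
      exact pow_le_pow_left₀ (div_nonneg hx.1 (hR0.trans hR').le)
        (div_le_div_of_nonneg_left hx.1 hR0 hR'.le) 2
    have ht : Tendsto (fun R' : ℝ => 4 * (∫ x in (0 : ℝ)..P, √(1 - (x / R) ^ 2)) + A / R')
        (𝓝[>] R) (𝓝 (4 * (∫ x in (0 : ℝ)..P, √(1 - (x / R) ^ 2)) + A / R)) :=
      ((tendsto_const_nhds.div tendsto_id hR0.ne').const_add _).mono_left nhdsWithin_le_nhds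
    exact le_of_tendsto ht (eventually_nhdsWithin_of_forall fun R' hR' => hlim R' hR')

/-- A boxed slice: its extent `X` and the bound `π X + A / X`. -/
theorem PlanarSet.exists_extent (h : PlanarSet E c) (hend : EndLimit (lineLen E i) 0)
    (hlt : ∀ᵐ x ∂volume.restrict period, lineLen E i x < 1) (hA : 0 < area E) :
    ∃ X : ℝ, 0 < X ∧ X ≤ 1 / 2 ∧ (∀ x, |x| < X → 0 < lineLen E i x) ∧
      (∀ x, X < |x| → |x| < 1 / 2 → lineLen E i x = 0) ∧ π * X + area E / X ≤ c := by
  set A := area E
  set S := {x : ℝ | 0 ≤ x ∧ x < 1 / 2 ∧ 0 < lineLen E i x}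
  have hne : S.Nonempty := by
    refine ⟨0, le_rfl, by norm_num, ?_⟩
    by_contra h0
    refine (not_le.2 hA) ?_
    simp only [A, ← integral_lineLen h.meas i]
    refine integral_nonpos_of_ae ?_
    filter_upwards [period_ae_interior] with x hx
    exact (lineLen_antitone h 0 x (by simp) hx.le).trans (not_lt.1 h0)
  have hbd : BddAbove S := ⟨1 / 2, fun x hx => hx.2.1.le⟩
  set X := sSup S
  have hX2 : X ≤ 1 / 2 := csSup_le hne fun x hx => hx.2.1.le
  have hX0 : 0 ≤ X := by obtain ⟨x, hx⟩ := hne; exact hx.1.trans (le_csSup hbd hx)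
  have hout : ∀ x, X < |x| → |x| < 1 / 2 → lineLen E i x = 0 := fun x h1 h2 => by
    refine le_antisymm (not_lt.1 fun h3 => ?_) (lineLen_mem x).1
    have : |x| ∈ S := ⟨abs_nonneg x, h2, h3.trans_le (lineLen_antitone h |x| x (by rw [abs_abs]) h2.le)⟩
    exact absurd (le_csSup hbd this) (not_le.2 h1)
  have hin : ∀ x, |x| < X → 0 < lineLen E i x := fun x hx => by
    obtain ⟨y, hy, hxy⟩ := exists_lt_of_lt_csSup hne hx
    exact hy.2.2.trans_le (lineLen_antitone h x y (by rw [abs_of_nonneg hy.1]; exact hxy.le)
      (by rw [abs_of_nonneg hy.1]; exact hy.2.1.le))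
  have hX : 0 < X := by
    refine hX0.lt_of_ne fun e => (not_le.2 hA) ?_
    simp only [A, ← integral_lineLen h.meas i]
    refine integral_nonpos_of_ae ?_
    filter_upwards [period_ae_interior, ae_restrict_of_ae (Measure.ae_ne volume (0 : ℝ))] with x hx hx0
    exact (hout x (e ▸ abs_pos.2 hx0) hx).le
  have hb := h.boxed hX.le le_rfl hX hX2 le_rfl hend hlt hout hin
  have hI : ∫ x in (0 : ℝ)..X, √(1 - (x / X) ^ 2) = X * (π / 4) := by
    rw [intervalIntegral.integral_comp_div (fun x => √(1 - x ^ 2)) hX.ne', div_self hX.ne', zero_div,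
      smul_eq_mul]
    congr 1
    have e : ∫ x in (-1 : ℝ)..1, √(1 - x ^ 2) = π / 2 := integral_sqrt_one_sub_sq
    have hg : Continuous fun x : ℝ => √(1 - x ^ 2) := by fun_prop
    rw [← intervalIntegral.integral_add_adjacent_intervals (hg.intervalIntegrable (-1) 0)
      (hg.intervalIntegrable 0 1)] at e
    have hneg := intervalIntegral.integral_comp_neg (a := (0 : ℝ)) (b := 1) (fun x : ℝ => √(1 - x ^ 2))
    simp only [neg_zero, neg_sq] at hneg
    rw [← hneg] at e
    linarith
  rw [hI] at hb
  exact ⟨X, hX, hX2, hin, hout, by linarith⟩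

/-- The isoperimetric inequality for boxed slices. -/
theorem PlanarSet.isoperimetric_boxed (h : PlanarSet E c) (hend : EndLimit (lineLen E i) 0)
    (hlt : ∀ᵐ x ∂volume.restrict period, lineLen E i x < 1) :
    4 * π * area E ≤ c ^ 2 := by
  rcases le_or_gt (area E) 0 with hA | hA
  · nlinarith [pi_pos, sq_nonneg c]
  obtain ⟨X, hX, -, -, -, hb⟩ := h.exists_extent hend hlt hA
  have e : π * X * (area E / X) = π * area E := by field_simp
  have h4 : 4 * π * area E ≤ (π * X + area E / X) ^ 2 := by
    nlinarith [sq_nonneg (π * X - area E / X)]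
  exact h4.trans (pow_le_pow_left₀ (by positivity) hb 2)

/-- Complement, moved to the antipodal point. -/
def coSet (E : Set (Fin 2 → ℝ)) : Set (Fin 2 → ℝ) := {x | (x + fun _ => 1 / 2) ∉ E}

theorem coSet_indicator (x : Fin 2 → ℝ) :
    (coSet E).indicator (fun _ => (1 : ℝ)) x
      = 1 - E.indicator (fun _ => (1 : ℝ)) (x + fun _ => 1 / 2) := by
  by_cases h : (x + fun _ => (1 : ℝ) / 2) ∈ E
  · rw [indicator_of_notMem (show x ∉ coSet E from fun hx => hx h), indicator_of_mem h, sub_self]
  · rw [indicator_of_mem (show x ∈ coSet E from h), indicator_of_notMem h, sub_zero]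

theorem indicator_periodic {n : ℕ} {E : Set (Fin n → ℝ)} (h : Periodic fun x => x ∈ E) :
    Periodic (E.indicator fun _ => (1 : ℝ)) := fun i x => by
  have e : (x + Pi.single i 1 ∈ E) = (x ∈ E) := h i x
  by_cases hx : x ∈ E
  · rw [indicator_of_mem hx, indicator_of_mem (e ▸ hx)]
  · rw [indicator_of_notMem hx, indicator_of_notMem (e ▸ hx)]

theorem integral_divergence {n : ℕ} {F : (Fin n → ℝ) → Fin n → ℝ} (hF : TestField F) :
    ∫ x in cube n, divergence F x = 0 := by
  obtain ⟨e, -⟩ := integral_mul_divergence (u := fun _ => (1 : ℝ)) (K := 0) (LipschitzWith.const 1)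
    (fun _ _ => rfl) hF
  simpa using e

theorem coSet_symm (h : PlanarSet E c) : SymmDecr ((coSet E).indicator fun _ => (1 : ℝ)) := by
  intro x j y hy
  simp only [coSet_indicator]
  refine sub_le_sub_left ?_ 1
  set z : Fin 2 → ℝ := update x j y + fun _ => (1 : ℝ) / 2
  have hh := h.symm z j (x j + 1 / 2) (by
    simp only [z, Pi.add_apply, update_self, mul_add,
      show 2 * π * (1 / 2 : ℝ) = π by ring, cos_add_pi]
    linarith)
  have e : update z j (x j + 1 / 2) = x + fun _ => (1 : ℝ) / 2 := funext fun k => by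
    rcases eq_or_ne k j with rfl | hk <;> simp_all [z]
  rwa [e] at hh

/-- The complement of a planar set is a planar set. -/
theorem PlanarSet.co (h : PlanarSet E c) : PlanarSet (coSet E) c := by
  have hadd : Measurable fun x : Fin 2 → ℝ => x + fun _ => (1 : ℝ) / 2 := measurable_id.add_const _
  refine ⟨(hadd h.meas).compl, (h.periodic.comp_translate _).comp_left Not, coSet_symm h,
    fun F hF => ?_⟩
  set t : Fin 2 → ℝ := fun _ => (1 : ℝ) / 2
  set G : (Fin 2 → ℝ) → Fin 2 → ℝ := fun x => -F (x - t)
  have hG : TestField G := by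
    refine ⟨(hF.contDiff.comp (contDiff_id.sub contDiff_const)).neg, fun i x => ?_, fun x => ?_⟩
    · simp only [G, add_sub_right_comm, hF.periodic i]
    · simpa [G] using hF.sq_le (x - t)
  have hdiv : ∀ x, divergence G (x + t) = -divergence F x := fun x => by
    rw [← divergence_translate]
    simp only [G, add_sub_cancel_right, divergence, Pi.neg_apply, fderiv_fun_neg,
      neg_apply, Finset.sum_neg_distrib]
  obtain ⟨C, hC⟩ := hF.divergence_bound
  have hχm : Measurable fun x => E.indicator (fun _ => (1 : ℝ)) (x + t) :=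
    (measurable_const.indicator h.meas).comp hadd
  have hint : IntegrableOn (fun x => E.indicator (fun _ => (1 : ℝ)) (x + t) * divergence F x) (cube 2) :=
    integrableOn_cube (hχm.mul (divergence_measurable F)) (C := 1 * C) fun x => by
      rw [abs_mul]
      exact mul_le_mul (by by_cases hx : x + t ∈ E <;> simp [hx]) (hC x) (abs_nonneg _) zero_le_one
  simp only [coSet_indicator, sub_mul, one_mul]
  rw [integral_sub (integrableOn_cube (divergence_measurable F) hC) hint, integral_divergence hF,
    zero_sub]
  refine le_trans (le_of_eq ?_) (h.tv G hG)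
  have hper : Periodic fun x => E.indicator (fun _ => (1 : ℝ)) x * divergence G x := fun i x => by
    simp only [indicator_periodic h.periodic i x, divergence_periodic hG.periodic i x]
  rw [← hper.integral_translate t, ← integral_neg]
  exact integral_congr_ae (.of_forall fun x => by simp only [hdiv]; ring)

theorem area_coSet (h : PlanarSet E c) : area (coSet E) = 1 - area E := by
  have hadd : Measurable fun x : Fin 2 → ℝ => x + fun _ => (1 : ℝ) / 2 := measurable_id.add_const _
  simp only [area, coSet_indicator]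
  rw [integral_sub (f := fun _ => (1 : ℝ)) (g := fun x => E.indicator (fun _ => (1 : ℝ)) (x + fun _ => 1 / 2)) (integrableOn_cube measurable_const (C := 1) (by simp))
    (integrableOn_cube ((measurable_const.indicator h.meas).comp hadd) (C := 1) fun x => by
      rw [abs_of_nonneg (indicator_nonneg (fun _ _ => zero_le_one) _)]
      exact indicator_le_self' (fun _ _ => zero_le_one) _)]
  rw [(indicator_periodic h.periodic).integral_translate]
  simp [measureReal_def]

theorem splice_swap (i : Fin 2) (x t : ℝ) :
    splice (i.succAbove 0) t (fun _ : Fin 1 => x) = splice i x fun _ => t := by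
  funext j
  fin_cases i <;> fin_cases j <;> rfl

theorem lineLen_shift (h : PlanarSet E c) (i : Fin 2) (x : ℝ) :
    lineLen (coSet E) i x = 1 - lineLen E i (x + 1 / 2) := by
  have hsm : Measurable fun y : Fin 1 → ℝ => splice i (x + 1 / 2) y :=
    (splice_preserving i).measurable.comp measurable_prodMk_left
  have hadd : ∀ y : Fin 1 → ℝ,
      (splice i x y + fun _ => (1 : ℝ) / 2) = splice i (x + 1 / 2) (y + fun _ => 1 / 2) := fun y => by
    funext j
    refine i.succAboveCases ?_ (fun k => ?_) j
    · simp [splice_same]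
    · simp [splice_above]
  simp only [lineLen, slice, coSet_indicator, hadd]
  have hm : Measurable fun y : Fin 1 → ℝ => E.indicator (fun _ => (1 : ℝ)) (splice i (x + 1 / 2) y) :=
    (measurable_const.indicator h.meas).comp hsm
  rw [integral_sub (f := fun _ => (1 : ℝ))
    (g := fun y => E.indicator (fun _ => (1 : ℝ)) (splice i (x + 1 / 2) (y + fun _ => 1 / 2)))
    (integrableOn_cube measurable_const (C := 1) (by simp))
    (integrableOn_cube (hm.comp (measurable_id.add_const _)) (C := 1) fun y => by
      rw [abs_of_nonneg (indicator_nonneg (fun _ _ => zero_le_one) _)]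
      exact indicator_le_self' (fun _ _ => zero_le_one) _)]
  have ht := ((indicator_periodic h.periodic).slice (i := i) (x + 1 / 2)).integral_translate
    (fun _ => (1 : ℝ) / 2)
  simp only [slice] at ht
  rw [ht]
  simp [measureReal_def]

theorem lineLen_periodic (h : PlanarSet E c) (i : Fin 2) (x : ℝ) :
    lineLen E i (x + 1) = lineLen E i x := by
  have e : ∀ y : Fin 1 → ℝ, splice i (x + 1) y = splice i x y + Pi.single i 1 := fun y => by
    funext j
    refine i.succAboveCases ?_ (fun k => ?_) j
    · simp [splice_same]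
    · simp [splice_above, Fin.succAbove_ne i k]
  simp only [lineLen, slice, e, indicator_periodic h.periodic i]

/-- The isoperimetric inequality of the torus for symmetric decreasing sets. -/
theorem PlanarSet.isoperimetric (h : PlanarSet E c) :
    2 ≤ c ∨ 4 * π * area E ≤ c ^ 2 ∨ 4 * π * (1 - area E) ≤ c ^ 2 := by
  obtain ⟨a, ha, hend, hle⟩ := exists_endLimit (lineLen_mem (E := E) (i := (0 : Fin 2))) (lineLen_antitone h)
  by_cases hp : ∀ᵐ x ∂volume.restrict period, x ∈ partLines E 0
  · exact .inl (h.two_le hp)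
  by_cases hfull : ∀ᵐ x ∂volume.restrict period, lineLen E 0 x < 1
  · rcases eq_or_lt_of_le ha.1 with h0 | h0
    · exact .inr (.inl (h.isoperimetric_boxed (h0 ▸ hend) hfull))
    · refine absurd ?_ hp
      filter_upwards [hfull, period_ae_interior] with x hx hx'
      exact ⟨h0.trans_le (hle x hx'), hx⟩
  -- a full line away from the origin
  obtain ⟨x₀, hx₀p, hx₀0, hx₀1⟩ : ∃ x, |x| < 1 / 2 ∧ x ≠ 0 ∧ lineLen E 0 x = 1 := by
    by_contra hcon
    push Not at hcon
    refine hfull ?_
    filter_upwards [period_ae_interior, ae_restrict_of_ae (Measure.ae_ne volume (0 : ℝ))] with x hx hx0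
    exact lt_of_le_of_ne (lineLen_mem x).2 (hcon x hx hx0)
  have hone : ∀ x, |x| ≤ |x₀| → lineLen E 0 x = 1 := fun x hx =>
    le_antisymm (lineLen_mem x).2 (hx₀1 ▸ lineLen_antitone h x x₀ hx hx₀p.le)
  rcases eq_or_lt_of_le ha.1 with h0 | h0
  · -- all lines in the other direction are partial
    refine .inl (h.two_le (i := (0 : Fin 2).succAbove 0) ?_)
    filter_upwards [period_ae_interior, ae_restrict_of_ae (Measure.ae_ne volume (0 : ℝ))] with t ht ht0
    have hmS : ∀ (i : Fin 2) (x : ℝ), MeasurableSet (splice i x ⁻¹' E) := fun i x =>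
      ((splice_preserving i).measurable.comp measurable_prodMk_left) h.meas
    have hst : ∀ (i : Fin 2) (x s : ℝ), s ∈ period →
        (splice i x (fun _ => s) ∈ E → 2 * |s| ≤ lineLen E i x) ∧
        (splice i x (fun _ => s) ∉ E → lineLen E i x ≤ 2 * |s|) := fun i x s hs =>
      line_structure (hmS i x) (h.symm.slice x) s hs
    have htp : t ∈ period := ⟨(abs_lt.1 ht).1, (abs_lt.1 ht).2.le⟩
    refine ⟨?_, ?_⟩
    · have hmem : splice ((0 : Fin 2).succAbove 0) t (fun _ => x₀) ∈ E := by
        rw [splice_swap]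
        by_contra hcon
        linarith [(hst 0 x₀ t htp).2 hcon]
      have := (hst _ t x₀ ⟨(abs_lt.1 hx₀p).1, (abs_lt.1 hx₀p).2.le⟩).1 hmem
      linarith [abs_pos.2 hx₀0]
    · obtain ⟨η, hη0, hη, hηb⟩ := hend |t| (abs_pos.2 ht0)
      set s := (η + 1 / 2) / 2
      have hs1 : η < s := by simp only [s]; linarith
      have hs2 : s < 1 / 2 := by simp only [s]; linarith
      have hs0 : |s| = s := abs_of_nonneg (hη0.trans hs1.le)
      have hb := hηb s (hs0.symm ▸ hs1) (hs0.symm ▸ hs2)
      rw [← h0, sub_zero, abs_of_nonneg (lineLen_mem s).1] at hb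
      have hnot : splice ((0 : Fin 2).succAbove 0) t (fun _ => s) ∉ E := by
        rw [splice_swap]
        intro hmem
        linarith [(hst 0 s t htp).1 hmem, abs_pos.2 ht0]
      have := (hst _ t s ⟨by linarith, hs2.le⟩).2 hnot
      linarith
  · -- the complement is boxed
    refine .inr (.inr (area_coSet h ▸ h.co.isoperimetric_boxed (i := 0) (fun ε hε => ?_) ?_))
    · refine ⟨1 / 2 - |x₀|, by linarith, by linarith [abs_pos.2 hx₀0], fun x h1 h2 => ?_⟩
      have hz : lineLen (coSet E) 0 x = 0 := by
        rw [lineLen_shift h]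
        rcases le_or_gt 0 x with hx | hx
        · rw [show x + 1 / 2 = (x - 1 / 2) + 1 by ring, lineLen_periodic h, hone, sub_self]
          rw [abs_of_nonneg hx] at h1 h2
          rw [abs_of_neg (by linarith)]; linarith
        · rw [hone, sub_self]
          rw [abs_of_neg hx] at h1 h2
          rw [abs_of_nonneg (by linarith)]; linarith
      rw [hz, sub_zero, abs_zero]; exact hε.le
    · filter_upwards [period_ae_interior, ae_restrict_of_ae (Measure.ae_ne volume (0 : ℝ))] with x hx hx0
      rw [lineLen_shift h, sub_lt_self_iff]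
      rcases le_or_gt 0 x with hx' | hx'
      · rw [show x + 1 / 2 = (x - 1 / 2) + 1 by ring, lineLen_periodic h]
        refine h0.trans_le (hle _ ?_)
        rw [abs_of_nonneg hx'] at hx
        rw [abs_of_neg (by linarith)]
        linarith [lt_of_le_of_ne hx' (Ne.symm hx0)]
      · refine h0.trans_le (hle _ ?_)
        rw [abs_of_neg hx'] at hx
        rw [abs_of_nonneg (by linarith)]; linarith

end

end Vale.Agent.P232
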