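import Vale.Agent.P232.Perim.Variation

/-!
# P232: two-point symmetrisation on the torus

`pol j a u` takes the maximum of `u` and its reflection in `x j = a` on the side where the cosine
`cos (2π x j)` is the larger one, and the minimum on the other side.
-/

namespace Vale.Agent.P232

open MeasureTheory Set Function Filter Topology
open scoped NNReal

noncomputable section

variable {n : ℕ}

/-- The reflection in the hyperplane `x j = a`. -/
def refl (j : Fin n) (a : ℝ) (x : Fin n → ℝ) : Fin n → ℝ := update x j (2 * a - x j)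

/-- Which side of the reflection is favoured. -/
def side (j : Fin n) (a : ℝ) (x : Fin n → ℝ) : ℝ :=
  Real.cos (2 * Real.pi * x j) - Real.cos (2 * Real.pi * (2 * a - x j))

/-- The polarisation. -/
def pol (j : Fin n) (a : ℝ) (u : (Fin n → ℝ) → ℝ) (x : Fin n → ℝ) : ℝ :=
  if 0 ≤ side j a x then max (u x) (u (refl j a x)) else min (u x) (u (refl j a x))

variable {j : Fin n} {a : ℝ} {u v : (Fin n → ℝ) → ℝ}

theorem refl_apply_self (x : Fin n → ℝ) : refl j a x j = 2 * a - x j := by simp [refl]

theorem refl_apply_ne {i : Fin n} (h : i ≠ j) (x : Fin n → ℝ) : refl j a x i = x i := by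
  simp [refl, h]

theorem refl_refl (x : Fin n → ℝ) : refl j a (refl j a x) = x := by
  simp [refl, update_idem]

theorem refl_add_single (i : Fin n) (c : ℝ) (x : Fin n → ℝ) :
    refl j a (x + Pi.single i c) = refl j a x + Pi.single i (if i = j then -c else c) := by
  ext k
  rcases eq_or_ne k j with rfl | hk
  · rcases eq_or_ne i k with rfl | hi
    · simp [refl_apply_self]
      ring
    · simp [refl_apply_self, hi, hi.symm]
  · rcases eq_or_ne k i with rfl | hki
    · simp [refl_apply_ne hk, hk]
    · simp [refl_apply_ne hk, hki]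

theorem side_refl (x : Fin n → ℝ) : side j a (refl j a x) = -side j a x := by
  simp [side, refl_apply_self]

theorem Periodic.comp_refl {α : Type*} {f : (Fin n → ℝ) → α} (hf : Periodic f) :
    Periodic fun x => f (refl j a x) := fun i x => by
  show f (refl j a (x + Pi.single i 1)) = f (refl j a x)
  rw [refl_add_single]
  split_ifs with h
  · exact_mod_cast hf.add_int i (-1) (refl j a x)
  · exact hf i _

theorem side_periodic : Periodic (side j a) := fun i x => by
  unfold side
  rcases eq_or_ne j i with rfl | h
  · rw [Pi.add_apply, Pi.single_eq_same,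
      show 2 * Real.pi * (x j + 1) = 2 * Real.pi * x j + 2 * Real.pi by ring,
      show 2 * Real.pi * (2 * a - (x j + 1)) = 2 * Real.pi * (2 * a - x j) - 2 * Real.pi by ring,
      Real.cos_add_two_pi, Real.cos_sub_two_pi]
  · simp [Pi.single_eq_of_ne h]

theorem pol_periodic (hu : Periodic u) : Periodic (pol j a u) := fun i x => by
  unfold pol
  have h : u (refl j a (x + Pi.single i 1)) = u (refl j a x) := hu.comp_refl i x
  rw [side_periodic i x, hu i x, h]

theorem continuous_refl : Continuous (refl j a) := by unfold refl; fun_prop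

theorem continuous_side : Continuous (side j a) := by unfold side; fun_prop

theorem differentiable_refl : Differentiable ℝ (refl j a) := differentiable_pi.2 fun i => by
  rcases eq_or_ne i j with rfl | hi
  · simp only [refl_apply_self]
    fun_prop
  · simp only [refl_apply_ne hi]
    fun_prop

theorem dist_refl (x y : Fin n → ℝ) : dist (refl j a x) (refl j a y) = dist x y := by
  have h : ∀ i, dist (refl j a x i) (refl j a y i) = dist (x i) (y i) := fun i => by
    rcases eq_or_ne i j with rfl | hi
    · rw [refl_apply_self, refl_apply_self, dist_sub_left]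
    · rw [refl_apply_ne hi, refl_apply_ne hi]
  simp only [dist_pi_def, nndist_dist, h]

/-- The reflection planes: either of two, as soon as the favoured side is defined. -/
theorem side_eq_zero (ha : ∀ k : ℤ, 2 * a ≠ k) {x : Fin n → ℝ} (h : side j a x = 0) :
    ∃ k : ℤ, refl j a x = x + Pi.single j (k : ℝ) := by
  obtain ⟨k, hk | hk⟩ := Real.cos_eq_cos_iff.1 (sub_eq_zero.1 h)
  · refine ⟨k, ?_⟩
    ext i
    rcases eq_or_ne i j with rfl | hi
    · have : 2 * a - x i = k + x i := mul_left_cancel₀ Real.two_pi_pos.ne' (by linarith)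
      simp [refl_apply_self]
      linarith
    · simp [refl_apply_ne hi, hi]
  · exact absurd (mul_left_cancel₀ Real.two_pi_pos.ne' (by linarith) : 2 * a = (k : ℝ)) (ha k)

theorem eq_refl_of_side (ha : ∀ k : ℤ, 2 * a ≠ k) (hu : Periodic u) {x : Fin n → ℝ}
    (h : side j a x = 0) : u (refl j a x) = u x := by
  obtain ⟨k, hk⟩ := side_eq_zero ha h
  rw [hk, hu.add_int]

/-- The two values at a pair of reflected points. -/
theorem pol_pair (ha : ∀ k : ℤ, 2 * a ≠ k) (hu : Periodic u) (x : Fin n → ℝ) :
    (pol j a u x = u x ∧ pol j a u (refl j a x) = u (refl j a x)) ∨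
      (pol j a u x = u (refl j a x) ∧ pol j a u (refl j a x) = u x) := by
  unfold pol
  rw [side_refl, refl_refl, max_comm (u (refl j a x)) (u x), min_comm (u (refl j a x)) (u x)]
  rcases lt_trichotomy (side j a x) 0 with h | h | h
  · rw [if_neg (not_le.2 h), if_pos (by linarith)]
    rcases le_total (u x) (u (refl j a x)) with e | e
    · exact .inl ⟨min_eq_left e, max_eq_right e⟩
    · exact .inr ⟨min_eq_right e, max_eq_left e⟩
  · rw [h, neg_zero, if_pos le_rfl, eq_refl_of_side ha hu h]
    simp
  · rw [if_pos h.le, if_neg (by linarith)]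
    rcases le_total (u x) (u (refl j a x)) with e | e
    · exact .inr ⟨max_eq_right e, min_eq_left e⟩
    · exact .inl ⟨max_eq_left e, min_eq_right e⟩

theorem pol_mem (x : Fin n → ℝ) : pol j a u x = u x ∨ pol j a u x = u (refl j a x) := by
  unfold pol
  split_ifs
  · exact max_choice _ _
  · exact min_choice _ _

/-- Polarisation preserves Lipschitz bounds. -/
theorem pol_lipschitz (ha : ∀ k : ℤ, 2 * a ≠ k) {K : ℝ≥0} (hu : LipschitzWith K u)
    (hp : Periodic u) : LipschitzWith K (pol j a u) := by
  have hs : LipschitzWith K fun x => u (refl j a x) := LipschitzWith.of_dist_le_mul fun x y => by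
    simpa only [dist_refl] using hu.dist_le_mul (refl j a x) (refl j a y)
  have hmax : LipschitzWith K fun x => max (u x) (u (refl j a x)) := by simpa using hu.max hs
  have hmin : LipschitzWith K fun x => min (u x) (u (refl j a x)) := by simpa using hu.min hs
  refine LipschitzWith.of_dist_le_mul fun x y => ?_
  wlog hxy : side j a y ≤ side j a x generalizing x y
  · rw [dist_comm, dist_comm x]
    exact this y x (le_of_not_ge hxy)
  rcases le_or_gt 0 (side j a y) with hy | hy
  · simp only [pol, if_pos hy, if_pos (hy.trans hxy)]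
    exact hmax.dist_le_mul x y
  rcases lt_or_ge (side j a x) 0 with hx | hx
  · simp only [pol, if_neg (not_le.2 hy), if_neg (not_le.2 hx)]
    exact hmin.dist_le_mul x y
  obtain ⟨θ, hθ, hθ0⟩ : ∃ θ ∈ Icc (0 : ℝ) 1, side j a (x + θ • (y - x)) = 0 := by
    refine intermediate_value_Icc' zero_le_one
      (continuous_side.comp (by fun_prop : Continuous fun θ : ℝ => x + θ • (y - x))).continuousOn ?_
    simpa using ⟨hy.le, hx⟩
  set z := x + θ • (y - x)
  have hz := eq_refl_of_side ha hp hθ0
  have d1 : dist x z = θ * dist x y := by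
    rw [dist_comm, dist_eq_norm, show z - x = θ • (y - x) by simp [z], norm_smul, Real.norm_eq_abs,
      abs_of_nonneg hθ.1, dist_comm, dist_eq_norm]
  have d2 : dist z y = (1 - θ) * dist x y := by
    rw [dist_comm, dist_eq_norm, show y - z = (1 - θ) • (y - x) by simp [z]; module, norm_smul,
      Real.norm_eq_abs, abs_of_nonneg (by linarith [hθ.2]), dist_comm, dist_eq_norm]
  simp only [pol, if_pos hx, if_neg (not_le.2 hy)]
  calc dist (max (u x) (u (refl j a x))) (min (u y) (u (refl j a y)))
      ≤ dist (max (u x) (u (refl j a x))) (u z) + dist (u z) (min (u y) (u (refl j a y))) :=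
        dist_triangle _ _ _
    _ ≤ K * dist x z + K * dist z y := by
        have h1 := hmax.dist_le_mul x z
        have h2 := hmin.dist_le_mul z y
        simp only [hz, max_self, min_self] at h1 h2
        exact add_le_add h1 h2
    _ = K * dist x y := by rw [d1, d2]; ring

theorem measurePreserving_refl : MeasurePreserving (refl j a) := by
  have e : refl j a = fun (x : Fin n → ℝ) i => (if i = j then fun t : ℝ => 2 * a - t else id) (x i) := by
    funext x i
    rcases eq_or_ne i j with rfl | hi
    · simp [refl_apply_self]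
    · simp [refl_apply_ne hi, hi]
  rw [e]
  refine volume_preserving_pi fun i => ?_
  rcases eq_or_ne i j with rfl | hi
  · simpa using Measure.measurePreserving_sub_left volume (2 * a)
  · simpa [hi] using MeasurePreserving.id volume

theorem preimage_refl_cube :
    refl j a ⁻¹' cube n =ᵐ[volume] cubeAt (Pi.single j (2 * a)) := by
  have e : refl j a ⁻¹' cube n = Set.pi univ fun i =>
      if i = j then Ico (2 * a - 1 / 2) (2 * a + 1 / 2) else Ioc (-(1 / 2)) (1 / 2) := by
    ext x
    simp only [cube, mem_preimage, mem_univ_pi]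
    refine forall_congr' fun i => ?_
    rcases eq_or_ne i j with rfl | hi
    · rw [refl_apply_self, if_pos rfl, mem_Ioc, mem_Ico]
      exact ⟨fun h => ⟨by linarith [h.2], by linarith [h.1]⟩, fun h => ⟨by linarith [h.2], by linarith [h.1]⟩⟩
    · rw [refl_apply_ne hi, if_neg hi]
  rw [e, cubeAt, volume_pi]
  refine Measure.ae_eq_set_pi fun i _ => ?_
  rcases eq_or_ne i j with rfl | hi
  · rw [if_pos rfl, Pi.single_eq_same]
    exact Ico_ae_eq_Ioc
  · simp only [if_neg hi, Pi.single_eq_of_ne hi, zero_sub, zero_add]
    exact EventuallyEq.rfl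

/-- Integrals over the cube are invariant under the reflection. -/
theorem Periodic.integral_refl {f : (Fin n → ℝ) → ℝ} (hf : Periodic f) :
    ∫ x in cube n, f (refl j a x) = ∫ x in cube n, f x := by
  let h : (Fin n → ℝ) ≃ₜ (Fin n → ℝ) :=
    { toFun := refl j a, invFun := refl j a, left_inv := refl_refl, right_inv := refl_refl
      continuous_toFun := continuous_refl, continuous_invFun := continuous_refl }
  have h1 := (measurePreserving_refl (j := j) (a := a)).setIntegral_preimage_emb h.measurableEmbedding
    (fun x => f (refl j a x)) (cube n)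
  simp only [refl_refl] at h1
  rw [← h1, setIntegral_congr_set preimage_refl_cube]
  exact hf.integral_cubeAt _

/-- Polarisation preserves the distribution. -/
theorem pol_distribution (ha : ∀ k : ℤ, 2 * a ≠ k) {K : ℝ≥0} (hu : LipschitzWith K u)
    (hp : Periodic u) {g : ℝ → ℝ} (hg : Continuous g) :
    ∫ x in cube n, g (pol j a u x) = ∫ x in cube n, g (u x) := by
  have hv := pol_periodic (j := j) (a := a) hp
  have hvl := pol_lipschitz (j := j) ha hu hp
  have int : ∀ {f : (Fin n → ℝ) → ℝ}, Periodic f → Continuous f → IntegrableOn f (cube n) :=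
    fun hf hc => by
      obtain ⟨C, hC⟩ := hf.bounded hc
      exact integrableOn_cube hc.measurable hC
  have h1 := (hp.comp_left g).integral_refl (j := j) (a := a)
  have h2 := (hv.comp_left g).integral_refl (j := j) (a := a)
  have key : ∫ x in cube n, (g (pol j a u x) + g (pol j a u (refl j a x)))
      = ∫ x in cube n, (g (u x) + g (u (refl j a x))) := integral_congr_ae (.of_forall fun x => by
    rcases pol_pair (j := j) ha hp x with ⟨e1, e2⟩ | ⟨e1, e2⟩ <;> simp only [e1, e2]
    exact add_comm _ _)
  rw [integral_add (int (hv.comp_left g) (hg.comp hvl.continuous))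
      (int (hv.comp_left g).comp_refl (hg.comp (hvl.continuous.comp continuous_refl))),
    integral_add (int (hp.comp_left g) (hg.comp hu.continuous))
      (int (hp.comp_left g).comp_refl (hg.comp (hu.continuous.comp continuous_refl))), h1, h2] at key
  linarith

theorem ae_side_ne (ha : ∀ k : ℤ, 2 * a ≠ k) : ∀ᵐ x : Fin n → ℝ, side j a x ≠ 0 := by
  have h : ∀ k : ℤ, ∀ᵐ x : Fin n → ℝ, x j ≠ a - (k : ℝ) / 2 := fun k =>
    (Measure.quasiMeasurePreserving_eval (fun _ : Fin n => (volume : Measure ℝ)) j).ae
      (Measure.ae_ne volume (a - (k : ℝ) / 2))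
  filter_upwards [ae_all_iff.2 h] with x hx h0
  obtain ⟨k, hk⟩ := side_eq_zero ha h0
  have := congrFun hk j
  rw [refl_apply_self, Pi.add_apply, Pi.single_eq_same] at this
  exact hx k (by linarith)

theorem fderiv_comp_refl {w : (Fin n → ℝ) → ℝ} {x : Fin n → ℝ} (hw : DifferentiableAt ℝ w (refl j a x))
    (i : Fin n) : fderiv ℝ (fun y => w (refl j a y)) x (Pi.single i 1)
      = fderiv ℝ w (refl j a x) (Pi.single i (if i = j then -1 else 1)) := by
  have hd : DifferentiableAt ℝ (refl j a) x := differentiable_refl x
  have h1 := ((hw.comp x hd).hasFDerivAt.hasLineDerivAt (Pi.single i 1)).lineDeriv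
  have h2 := (hw.hasFDerivAt.hasLineDerivAt (Pi.single i (if i = j then (-1 : ℝ) else 1))).lineDeriv
  rw [← h2, show fderiv ℝ (fun y => w (refl j a y)) x = fderiv ℝ (w ∘ refl j a) x from rfl, ← h1]
  unfold lineDeriv
  congr 1
  funext t
  show w (refl j a _) = w _
  rw [← Pi.single_smul, ← Pi.single_smul, refl_add_single]
  congr 2
  split_ifs <;> simp

theorem gradLen_comp_refl {w : (Fin n → ℝ) → ℝ} {x : Fin n → ℝ}
    (hw : DifferentiableAt ℝ w (refl j a x)) :
    gradLen (fun y => w (refl j a y)) x = gradLen w (refl j a x) := by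
  unfold gradLen
  congr 1
  refine Finset.sum_congr rfl fun i _ => ?_
  rw [fderiv_comp_refl hw]
  split_ifs
  · rw [Pi.single_neg, map_neg, neg_sq]
  · rfl

/-- The gradient of the polarisation at a point off the planes. -/
theorem gradLen_pol {x : Fin n → ℝ} (hx : side j a x ≠ 0) (hv : DifferentiableAt ℝ (pol j a u) x)
    (h1 : DifferentiableAt ℝ u x) (h2 : DifferentiableAt ℝ u (refl j a x)) :
    (pol j a u x = u x → gradLen (pol j a u) x = gradLen u x) ∧
      (pol j a u x = u (refl j a x) → gradLen (pol j a u) x = gradLen u (refl j a x)) := by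
  have key : ∀ w : (Fin n → ℝ) → ℝ, (∀ y, w y = u y ∨ w y = u (refl j a y)) →
      DifferentiableAt ℝ w x → pol j a u x = w x →
      ((∀ᶠ y in 𝓝 x, w y ≤ pol j a u y) ∨ (∀ᶠ y in 𝓝 x, pol j a u y ≤ w y)) →
        gradLen (pol j a u) x = gradLen w x := by
    intro w _ hw he hle
    have hd : fderiv ℝ (pol j a u - w) x = 0 := by
      rcases hle with h | h
      · exact IsLocalMin.fderiv_eq_zero (h.mono fun y hy => by
          simp only [Pi.sub_apply, he, sub_self, sub_nonneg]; exact hy)
      · exact IsLocalMax.fderiv_eq_zero (h.mono fun y hy => by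
          simp only [Pi.sub_apply, he, sub_self, sub_nonpos]; exact hy)
    rw [fderiv_sub hv hw, sub_eq_zero] at hd
    simp only [gradLen, hd]
  have hloc : (∀ᶠ y in 𝓝 x, 0 < side j a y) ∨ (∀ᶠ y in 𝓝 x, side j a y < 0) := by
    rcases hx.lt_or_gt with h | h
    · exact .inr ((continuous_side.tendsto x).eventually (gt_mem_nhds h))
    · exact .inl ((continuous_side.tendsto x).eventually (lt_mem_nhds h))
  constructor
  · intro he
    refine key u (fun y => .inl rfl) h1 he ?_
    rcases hloc with h | h
    · exact .inl (h.mono fun y hy => by simp only [pol, if_pos hy.le]; exact le_max_left _ _)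
    · exact .inr (h.mono fun y hy => by simp only [pol, if_neg (not_le.2 hy)]; exact min_le_left _ _)
  · intro he
    have hd : DifferentiableAt ℝ (refl j a) x := differentiable_refl x
    rw [key (fun y => u (refl j a y)) (fun y => .inr rfl) (h2.comp x hd) he ?_, gradLen_comp_refl h2]
    rcases hloc with h | h
    · exact .inl (h.mono fun y hy => by simp only [pol, if_pos hy.le]; exact le_max_right _ _)
    · exact .inr (h.mono fun y hy => by simp only [pol, if_neg (not_le.2 hy)]; exact min_le_right _ _)

/-- Polarisation preserves the integral of the gradient. -/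
theorem pol_gradLen (ha : ∀ k : ℤ, 2 * a ≠ k) {K : ℝ≥0} (hu : LipschitzWith K u) (hp : Periodic u) :
    ∫ x in cube n, gradLen (pol j a u) x = ∫ x in cube n, gradLen u x := by
  set w := pol j a u with hw
  have hwl := pol_lipschitz (j := j) ha hu hp
  have hwp := pol_periodic (j := j) (a := a) hp
  have hae : ∀ {f : (Fin n → ℝ) → ℝ}, LipschitzWith K f →
      ∀ᵐ x : Fin n → ℝ, DifferentiableAt ℝ f x ∧ DifferentiableAt ℝ f (refl j a x) := fun hf => by
    filter_upwards [hf.ae_differentiableAt,
      measurePreserving_refl.quasiMeasurePreserving.ae (hf.ae_differentiableAt)] with x h1 h2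
    exact ⟨h1, h2⟩
  have key : ∫ x in cube n, (gradLen w x + gradLen w (refl j a x))
      = ∫ x in cube n, (gradLen u x + gradLen u (refl j a x)) := by
    refine integral_congr_ae (ae_restrict_of_ae ?_)
    filter_upwards [ae_side_ne (j := j) ha, hae hu, hae hwl] with x hx ⟨hu1, hu2⟩ ⟨hw1, hw2⟩
    have A := gradLen_pol hx hw1 hu1 hu2
    have B := gradLen_pol (u := u) (j := j) (a := a) (x := refl j a x) (by rwa [side_refl, neg_ne_zero])
      hw2 hu2 (by rwa [refl_refl])
    rw [refl_refl] at B
    rcases pol_pair (j := j) ha hp x with ⟨e1, e2⟩ | ⟨e1, e2⟩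
    · rw [A.1 e1, B.1 e2]
    · rw [A.2 e1, B.2 e2, add_comm]
  have int : ∀ {f : (Fin n → ℝ) → ℝ}, LipschitzWith K f →
      IntegrableOn (gradLen f) (cube n) ∧ IntegrableOn (fun x => gradLen f (refl j a x)) (cube n) :=
    fun hf => ⟨integrableOn_cube (gradLen_measurable _) (gradLen_abs_le hf),
      integrableOn_cube ((gradLen_measurable _).comp continuous_refl.measurable)
        fun x => gradLen_abs_le hf _⟩
  rw [integral_add (int hwl).1 (int hwl).2, integral_add (int hu).1 (int hu).2,
    (gradLen_periodic hwp).integral_refl, (gradLen_periodic hp).integral_refl] at key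
  linarith

end

end Vale.Agent.P232
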