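import Vale.Agent.P232.Perim.Compact

/-!
# P232: symmetric decreasing rearrangement of periodic Lipschitz functions

Among the pointwise limits of iterated polarisations, one maximising `∫ w φ`,
`φ x = ∑ cos (2π x i)`, is symmetric decreasing in all coordinates.
-/

namespace Vale.Agent.P232

open MeasureTheory Set Function Filter Topology
open scoped NNReal

noncomputable section

variable {n : ℕ}

/-- The weight which is maximised. -/
def weight (x : Fin n → ℝ) : ℝ := ∑ k, Real.cos (2 * Real.pi * x k)

theorem weight_periodic : Periodic (weight (n := n)) := fun i x => Finset.sum_congr rfl fun k _ => by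
  rcases eq_or_ne k i with rfl | h
  · rw [Pi.add_apply, Pi.single_eq_same, mul_add, mul_one, Real.cos_add_two_pi]
  · simp [Pi.single_eq_of_ne h]

theorem continuous_weight : Continuous (weight (n := n)) := by unfold weight; fun_prop

theorem weight_sub_refl (j : Fin n) (a : ℝ) (x : Fin n → ℝ) :
    weight x - weight (refl j a x) = side j a x := by
  rw [weight, weight, ← Finset.sum_sub_distrib, Finset.sum_eq_single j]
  · rw [refl_apply_self]; rfl
  · intro i _ hi; rw [refl_apply_ne hi, sub_self]
  · exact fun h => absurd (Finset.mem_univ j) h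

theorem tendsto_setIntegral {f : ℕ → (Fin n → ℝ) → ℝ} {g : (Fin n → ℝ) → ℝ} {C : ℝ}
    (hm : ∀ k, Measurable (f k)) (hb : ∀ k x, |f k x| ≤ C)
    (hl : ∀ᵐ x ∂volume.restrict (cube n), Tendsto (fun k => f k x) atTop (𝓝 (g x))) :
    Tendsto (fun k => ∫ x in cube n, f k x) atTop (𝓝 (∫ x in cube n, g x)) :=
  tendsto_integral_of_dominated_convergence (fun _ => C) (fun k => (hm k).aestronglyMeasurable)
    (integrable_const _) (fun k => .of_forall fun x => by simpa using hb k x) hl

theorem divergence_measurable (F : (Fin n → ℝ) → Fin n → ℝ) : Measurable (divergence F) :=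
  Finset.measurable_fun_sum _ fun i _ => measurable_fderiv_apply_const ℝ _ _

theorem TestField.divergence_bound {F : (Fin n → ℝ) → Fin n → ℝ} (hF : TestField F) :
    ∃ C, ∀ x, |divergence F x| ≤ C := by
  choose K hK using hF.lipschitz
  exact ⟨∑ i, (K i : ℝ), fun x => (Finset.abs_sum_le_sum_abs _ _).trans
    (Finset.sum_le_sum fun i _ => fderiv_single_abs_le (hK i) x i)⟩

/-- The total variation is lower semicontinuous. -/
theorem TVLE.of_tendsto {f : ℕ → (Fin n → ℝ) → ℝ} {g : (Fin n → ℝ) → ℝ} {c : ℕ → ℝ} {d : ℝ}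
    (hm : ∀ k, Measurable (f k)) (hb : ∀ k x, |f k x| ≤ 1)
    (hl : ∀ᵐ x ∂volume.restrict (cube n), Tendsto (fun k => f k x) atTop (𝓝 (g x)))
    (hc : ∀ k, TVLE (f k) (c k)) (hd : Tendsto c atTop (𝓝 d)) : TVLE g d := by
  intro F hF
  obtain ⟨C, hC⟩ := hF.divergence_bound
  refine le_of_tendsto_of_tendsto' (tendsto_setIntegral (C := 1 * C)
    (fun k => (hm k).mul (divergence_measurable F)) (fun k x => ?_) ?_) hd fun k => hc k F hF
  · simp only [Pi.mul_apply, abs_mul]
    exact mul_le_mul (hb k x) (hC x) (abs_nonneg _) zero_le_one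
  · filter_upwards [hl] with x hx
    exact hx.mul_const _

/-- Obtained from `u` by finitely many polarisations. -/
inductive Iterate (u : (Fin n → ℝ) → ℝ) : ((Fin n → ℝ) → ℝ) → Prop
  | base : Iterate u u
  | step {v : (Fin n → ℝ) → ℝ} (j : Fin n) (a : ℝ) (ha : ∀ k : ℤ, 2 * a ≠ k) :
      Iterate u v → Iterate u (pol j a v)

theorem Iterate.props {u v : (Fin n → ℝ) → ℝ} {K : ℝ≥0} (h : Iterate u v) (hu : LipschitzWith K u)
    (hp : Periodic u) (h01 : ∀ x, u x ∈ Icc (0 : ℝ) 1) :
    LipschitzWith K v ∧ Periodic v ∧ (∀ x, v x ∈ Icc (0 : ℝ) 1) ∧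
      (∫ x in cube n, gradLen v x) = ∫ x in cube n, gradLen u x ∧
      ∀ g : ℝ → ℝ, Continuous g → ∫ x in cube n, g (v x) = ∫ x in cube n, g (u x) := by
  induction h with
  | base => exact ⟨hu, hp, h01, rfl, fun _ _ => rfl⟩
  | step j a ha _ ih =>
    obtain ⟨h1, h2, h3, h4, h5⟩ := ih
    refine ⟨pol_lipschitz ha h1 h2, pol_periodic h2, fun x => ?_, (pol_gradLen ha h1 h2).trans h4,
      fun g hg => (pol_distribution ha h1 h2 hg).trans (h5 g hg)⟩
    rcases pol_mem (j := j) (a := a) (u := _) x with e | e <;> rw [e] <;> exact h3 _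

theorem pol_tendsto {v : ℕ → (Fin n → ℝ) → ℝ} {w : (Fin n → ℝ) → ℝ}
    (h : ∀ x, Tendsto (fun k => v k x) atTop (𝓝 (w x))) (j : Fin n) (a : ℝ) (x : Fin n → ℝ) :
    Tendsto (fun k => pol j a (v k) x) atTop (𝓝 (pol j a w x)) := by
  unfold pol
  split_ifs
  · exact (h x).max (h _)
  · exact (h x).min (h _)

/-- A periodic continuous function vanishing almost everywhere on the cube vanishes. -/
theorem eq_zero_of_integral {f : (Fin n → ℝ) → ℝ} (hp : Periodic f) (hc : Continuous f)
    (h0 : ∀ x, 0 ≤ f x) (hi : ∫ x in cube n, f x = 0) (x : Fin n → ℝ) : f x = 0 := by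
  obtain ⟨C, hC⟩ := hp.bounded hc
  have : IsFiniteMeasure (volume.restrict (cubeAt x)) :=
    isFiniteMeasure_restrict.2 (by simp [volume_cubeAt])
  have hI : IntegrableOn f (cubeAt x) :=
    Integrable.of_bound hc.aestronglyMeasurable C (.of_forall hC)
  have hz : f =ᵐ[volume.restrict (cubeAt x)] 0 :=
    (integral_eq_zero_iff_of_nonneg (fun y => h0 y) hI).1 (by rw [hp.integral_cubeAt, hi])
  set O : Set (Fin n → ℝ) := Set.pi univ fun i => Ioo (x i - 1 / 2) (x i + 1 / 2)
  have hO : IsOpen O := isOpen_set_pi finite_univ fun _ _ => isOpen_Ioo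
  exact Measure.eqOn_open_of_ae_eq
    (ae_restrict_of_ae_restrict_of_subset (Set.pi_mono fun _ _ => Ioo_subset_Ioc_self) hz)
    hO hc.continuousOn continuousOn_const fun i _ => ⟨by linarith, by linarith⟩

theorem decr_of_side {w : (Fin n → ℝ) → ℝ} (hc : Continuous w) (hp : Periodic w) {j : Fin n}
    (h : ∀ a : ℝ, (∀ k : ℤ, 2 * a ≠ k) → ∀ x, 0 < side j a x → w (refl j a x) ≤ w x) (x : Fin n → ℝ)
    (y : ℝ) (hy : Real.cos (2 * Real.pi * y) ≤ Real.cos (2 * Real.pi * x j)) :
    w (update x j y) ≤ w x := by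
  have strict : ∀ (x : Fin n → ℝ) (y : ℝ),
      Real.cos (2 * Real.pi * y) < Real.cos (2 * Real.pi * x j) → w (update x j y) ≤ w x := by
    intro x y hy
    have e : refl j ((x j + y) / 2) x = update x j y := by
      unfold refl
      congr 1
      ring
    have := h ((x j + y) / 2) (fun k hk => ?_) x ?_
    · rwa [e] at this
    · have : y = k - x j := by linarith
      rw [this, show 2 * Real.pi * ((k : ℝ) - x j) = (k : ℝ) * (2 * Real.pi) - 2 * Real.pi * x j by ring,
        Real.cos_int_mul_two_pi_sub] at hy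
      exact lt_irrefl _ hy
    · rw [side, show 2 * ((x j + y) / 2) - x j = y by ring]
      linarith
  rcases hy.lt_or_eq with h' | h'
  · exact strict x y h'
  -- equal cosines: `y` is congruent to `x j` or to `-x j`
  obtain ⟨k, hk | hk⟩ := Real.cos_eq_cos_iff.1 h'.symm
  · have : y = x j + k := mul_left_cancel₀ Real.two_pi_pos.ne' (by linarith)
    rw [this, show update x j (x j + k) = x + Pi.single j (k : ℝ) by
      ext i; rcases eq_or_ne i j with rfl | hi <;> simp [*], hp.add_int]
  · have hy2 : y = k - x j := mul_left_cancel₀ Real.two_pi_pos.ne' (by linarith)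
    rcases eq_or_ne (Real.sin (2 * Real.pi * x j)) 0 with hs | hs
    · obtain ⟨l, hl⟩ := Real.sin_eq_zero_iff.1 hs
      have hx2 : 2 * x j = l := mul_left_cancel₀ Real.pi_ne_zero (by linarith)
      have : y = x j + ((k - l : ℤ) : ℝ) := by push_cast; linarith
      rw [this, show update x j (x j + ((k - l : ℤ) : ℝ)) = x + Pi.single j ((k - l : ℤ) : ℝ) by
        ext i; rcases eq_or_ne i j with rfl | hi <;> simp [*], hp.add_int]
    · have hsy : Real.sin (2 * Real.pi * y) ≠ 0 := by
        rw [hy2, show 2 * Real.pi * ((k : ℝ) - x j) = (k : ℝ) * (2 * Real.pi) - 2 * Real.pi * x j by ring,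
          Real.sin_int_mul_two_pi_sub]
        exact neg_ne_zero.2 hs
      -- `y` is a limit of points with smaller cosine
      have hd : HasDerivAt (fun t : ℝ => Real.cos (2 * Real.pi * t))
          (-Real.sin (2 * Real.pi * y) * (2 * Real.pi)) y := by
        simpa using (hasDerivAt_id y).const_mul (2 * Real.pi) |>.cos
      have hnot : ¬IsLocalMin (fun t : ℝ => Real.cos (2 * Real.pi * t)) y := fun hmin =>
        mul_ne_zero (neg_ne_zero.2 hsy) Real.two_pi_pos.ne' (hmin.hasDerivAt_eq_zero hd)
      have hfr : ∃ᶠ t in 𝓝 y, Real.cos (2 * Real.pi * t) < Real.cos (2 * Real.pi * x j) := by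
        rw [← h']
        simpa [IsLocalMin, IsMinFilter, not_eventually, not_le] using hnot
      exact le_of_tendsto_of_frequently
        ((hc.comp (continuous_const.update j continuous_id)).tendsto y)
        (hfr.mono fun t ht => strict x t ht)

theorem symmDecr_of_side {w : (Fin n → ℝ) → ℝ} (hc : Continuous w) (hp : Periodic w)
    (h : ∀ (j : Fin n) (a : ℝ), (∀ k : ℤ, 2 * a ≠ k) → ∀ x, 0 < side j a x → w (refl j a x) ≤ w x) :
    SymmDecr w := fun x j y hy => decr_of_side hc hp (h j) x y hy

/-- Rearrangement: symmetric decreasing, same distribution, no larger total variation. -/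
theorem exists_rearrange {u : (Fin n → ℝ) → ℝ} {K : ℝ≥0} (hu : LipschitzWith K u) (hp : Periodic u)
    (h01 : ∀ x, u x ∈ Icc (0 : ℝ) 1) :
    ∃ w, LipschitzWith K w ∧ Periodic w ∧ (∀ x, w x ∈ Icc (0 : ℝ) 1) ∧ SymmDecr w ∧
      TVLE w (∫ x in cube n, gradLen u x) ∧
      ∀ g : ℝ → ℝ, Continuous g → ∫ x in cube n, g (w x) = ∫ x in cube n, g (u x) := by
  set J : ((Fin n → ℝ) → ℝ) → ℝ := fun v => ∫ x in cube n, v x * weight x with hJdef
  obtain ⟨W, hW⟩ := (weight_periodic (n := n)).bounded continuous_weight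
  have bdd : BddAbove (J '' {v | Iterate u v}) := by
    refine ⟨W, ?_⟩
    rintro _ ⟨v, hv, rfl⟩
    obtain ⟨hl, -, h3, -, -⟩ := hv.props hu hp h01
    have hb : ∀ x, |v x * weight x| ≤ W := fun x => by
      rw [abs_mul]
      calc |v x| * |weight x| ≤ 1 * W := mul_le_mul (abs_le.2 ⟨by linarith [(h3 x).1], (h3 x).2⟩)
            (hW x) (abs_nonneg _) zero_le_one
        _ = W := one_mul W
    calc J v ≤ ∫ _ in cube n, W := setIntegral_mono
          (integrableOn_cube (hl.continuous.mul continuous_weight).measurable hb)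
          (integrableOn_const cube_finite) fun x => (abs_le.1 (hb x)).2
      _ = W := by simp [measureReal_def, volume_cube]
  obtain ⟨s, -, hs, hsmem⟩ := exists_seq_tendsto_sSup (S := J '' {v | Iterate u v})
    ⟨_, u, Iterate.base, rfl⟩ bdd
  choose v hv hvs using hsmem
  have hprop := fun k => (hv k).props hu hp h01
  have hab : ∀ k x, |v k x| ≤ 1 := fun k x => abs_le.2
    ⟨by linarith [((hprop k).2.2.1 x).1], ((hprop k).2.2.1 x).2⟩
  obtain ⟨φ, hφ, w, hwK, hw⟩ := lipschitz_subseq v (fun k => (hprop k).1) hab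
  have hwp : Periodic w := Periodic.of_tendsto (fun k => (hprop _).2.1) hw
  have hw01 : ∀ x, w x ∈ Icc (0 : ℝ) 1 := fun x =>
    isClosed_Icc.mem_of_tendsto (hw x) (.of_forall fun k => (hprop _).2.2.1 x)
  have hJlim : ∀ (f : ℕ → (Fin n → ℝ) → ℝ) (g : (Fin n → ℝ) → ℝ), (∀ k, Continuous (f k)) →
      (∀ k x, |f k x| ≤ 1) → (∀ x, Tendsto (fun k => f k x) atTop (𝓝 (g x))) →
      Tendsto (fun k => J (f k)) atTop (𝓝 (J g)) := fun f g hc hb hl =>
    tendsto_setIntegral (fun k => ((hc k).mul continuous_weight).measurable)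
      (fun k x => by simpa [abs_mul] using mul_le_mul (hb k x) (hW x) (abs_nonneg _) zero_le_one)
      (.of_forall fun x => (hl x).mul_const _)
  have hJw : J w = sSup (J '' {v | Iterate u v}) :=
    tendsto_nhds_unique (hJlim _ _ (fun k => (hprop _).1.continuous) (fun k x => hab _ x) hw)
      ((funext fun k => hvs (φ k) : (fun k => J (v (φ k))) = fun k => s (φ k)) ▸ hs.comp hφ.tendsto_atTop)
  refine ⟨w, hwK, hwp, hw01, symmDecr_of_side hwK.continuous hwp fun j a ha x hx => ?_,
    TVLE.of_tendsto (c := fun _ => ∫ x in cube n, gradLen u x)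
      (fun k => (hprop (φ k)).1.continuous.measurable) (fun k x => hab _ x) (.of_forall hw)
      (fun k => (hprop _).2.2.2.1 ▸ tvle_of_lipschitz (hprop _).1 (hprop _).2.1) tendsto_const_nhds,
    fun g hg => ?_⟩
  · set p := pol j a w
    have hpl : LipschitzWith K p := pol_lipschitz ha hwK hwp
    have hle : J p ≤ J w := by
      rw [hJw]
      refine le_of_tendsto' (hJlim _ _ (fun k => (pol_lipschitz ha (hprop _).1 (hprop _).2.1).continuous)
        (fun k y => ?_) (pol_tendsto hw j a)) fun k =>
          le_csSup bdd ⟨_, Iterate.step j a ha (hv (φ k)), rfl⟩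
      rcases pol_mem (j := j) (a := a) (u := v (φ k)) y with e | e <;> rw [e] <;> exact hab _ _
    set f := fun y => (p y - w y) * side j a y
    have hf0 : ∀ y, 0 ≤ f y := fun y => by
      simp only [f, p, pol]
      split_ifs with hs
      · exact mul_nonneg (sub_nonneg.2 (le_max_left _ _)) hs
      · exact mul_nonneg_of_nonpos_of_nonpos (sub_nonpos.2 (min_le_left _ _)) (not_le.1 hs).le
    have hfp : Periodic f := fun i y => by
      simp only [f, p, pol_periodic (j := j) (a := a) hwp i y, hwp i y, side_periodic (j := j) (a := a) i y]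
    have hfc : Continuous f := (hpl.continuous.sub hwK.continuous).mul continuous_side
    set h := fun y => (p y - w y) * weight y
    have hhp : Periodic h := fun i y => by
      simp only [h, p, pol_periodic (j := j) (a := a) hwp i y, hwp i y, weight_periodic i y]
    have hhc : Continuous h := (hpl.continuous.sub hwK.continuous).mul continuous_weight
    have hdec : ∀ y, f y = h y + h (refl j a y) := fun y => by
      have hflip : p (refl j a y) - w (refl j a y) = -(p y - w y) := by
        rcases pol_pair (j := j) ha hwp y with ⟨e1, e2⟩ | ⟨e1, e2⟩ <;> simp only [p, e1, e2] <;> ring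
      simp only [f, h, hflip, ← weight_sub_refl]
      ring
    obtain ⟨C, hC⟩ := hhp.bounded hhc
    have hz : ∫ y in cube n, f y = 0 := by
      refine le_antisymm ?_ (setIntegral_nonneg cube_measurable fun y _ => hf0 y)
      simp only [hdec]
      rw [integral_add (integrableOn_cube hhc.measurable hC)
        (integrableOn_cube (f := fun y => h (refl j a y)) (hhc.comp continuous_refl).measurable fun y => hC _),
        hhp.integral_refl]
      have i1 : ∀ {q : (Fin n → ℝ) → ℝ}, Continuous q → Periodic q →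
          IntegrableOn (fun y => q y * weight y) (cube n) := fun hq hqp => by
        obtain ⟨D, hD⟩ := hqp.bounded hq
        exact integrableOn_cube (hq.mul continuous_weight).measurable (C := D * W) fun y => by
          rw [abs_mul]
          exact mul_le_mul (hD y) (hW y) (abs_nonneg _) ((norm_nonneg _).trans (hD y))
      simp only [h, sub_mul]
      rw [integral_sub (i1 hpl.continuous (pol_periodic hwp)) (i1 hwK.continuous hwp)]
      simp only [hJdef] at hle
      linarith
    have h0 := eq_zero_of_integral hfp hfc hf0 hz x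
    simp only [f, mul_eq_zero, hx.ne', or_false, sub_eq_zero] at h0
    have e : p x = max (w x) (w (refl j a x)) := if_pos hx.le
    rw [← h0, e]
    exact le_max_right _ _
  · obtain ⟨G, hG⟩ := isCompact_Icc.exists_bound_of_continuousOn (hg.continuousOn (s := Icc (0 : ℝ) 1))
    exact tendsto_nhds_unique (tendsto_setIntegral (f := fun k x => g (v (φ k) x)) (C := G)
      (fun k => (hg.comp (hprop _).1.continuous).measurable)
      (fun k x => hG _ ((hprop _).2.2.1 x))
      (.of_forall fun x => (hg.tendsto _).comp (hw x)))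
      (tendsto_const_nhds.congr fun k => ((hprop (φ k)).2.2.2.2 g hg).symm)

end

end Vale.Agent.P232
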