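import Vale.Agent.P232.Perim.Symm

/-!
# P232: slices

A set of total variation at most `c` has, for almost every height, a slice of finite total variation
`L z`; and `∫ α L + ∫ β' A ≤ c` whenever `α² + β² ≤ 1`, `A z` being the measure of the slice.
-/

namespace Vale.Agent.P232

open MeasureTheory Set Function Filter Topology
open scoped NNReal ENNReal

noncomputable section

variable {m : ℕ}

/-- The period interval. -/
def period : Set ℝ := Ioc (-(1 / 2) : ℝ) (1 / 2)

theorem period_measurable : MeasurableSet period := measurableSet_Ioc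

theorem volume_period : volume period = 1 := by
  rw [period, Real.volume_Ioc]; norm_num

instance periodProb : IsProbabilityMeasure (volume.restrict period) :=
  ⟨by rw [Measure.restrict_apply_univ, volume_period]⟩

/-- The point of height `z` in direction `i`. -/
def splice (i : Fin (m + 1)) (z : ℝ) (y : Fin m → ℝ) : Fin (m + 1) → ℝ :=
  Fin.insertNth (α := fun _ => ℝ) i z y

/-- Slice of a function. -/
def slice (u : (Fin (m + 1) → ℝ) → ℝ) (i : Fin (m + 1)) (z : ℝ) (y : Fin m → ℝ) : ℝ :=
  u (splice i z y)

variable {i : Fin (m + 1)}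

theorem splice_same (z : ℝ) (y : Fin m → ℝ) : splice i z y i = z := Fin.insertNth_apply_same ..

theorem splice_above (z : ℝ) (y : Fin m → ℝ) (k : Fin m) : splice i z y (i.succAbove k) = y k :=
  Fin.insertNth_apply_succAbove ..

theorem splice_add_single (z : ℝ) (y : Fin m → ℝ) (k : Fin m) (t : ℝ) :
    splice i z (y + Pi.single k t) = splice i z y + Pi.single (i.succAbove k) t := by
  funext j
  refine i.succAboveCases ?_ (fun l => ?_) j
  · simp [splice_same, Pi.single_eq_of_ne (Fin.succAbove_ne i k).symm]
  · rcases eq_or_ne l k with rfl | h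
    · simp [splice_above]
    · simp [splice_above, h]

theorem dist_splice (z : ℝ) (y y' : Fin m → ℝ) : dist (splice i z y) (splice i z y') ≤ dist y y' := by
  refine (dist_pi_le_iff dist_nonneg).2 fun j => ?_
  refine i.succAboveCases ?_ (fun l => ?_) j
  · simp [splice_same]
  · simp only [splice_above]
    exact dist_le_pi_dist y y' l

theorem Periodic.slice {u : (Fin (m + 1) → ℝ) → ℝ} (hu : Periodic u) (z : ℝ) :
    Periodic (slice u i z) := fun k y => by
  show u (splice i z (y + Pi.single k 1)) = u (splice i z y)
  rw [splice_add_single, hu]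

theorem slice_lipschitz {u : (Fin (m + 1) → ℝ) → ℝ} {K : ℝ≥0} (hu : LipschitzWith K u) (z : ℝ) :
    LipschitzWith K (slice u i z) :=
  LipschitzWith.of_dist_le_mul fun y y' =>
    (hu.dist_le_mul _ _).trans (mul_le_mul_of_nonneg_left (dist_splice z y y') K.2)

theorem SymmDecr.slice {u : (Fin (m + 1) → ℝ) → ℝ} (hu : SymmDecr u) (z : ℝ) :
    SymmDecr (slice u i z) := fun y k t ht => by
  show u (splice i z (update y k t)) ≤ u (splice i z y)
  have e : splice i z (update y k t) = update (splice i z y) (i.succAbove k) t := by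
    funext j
    refine i.succAboveCases ?_ (fun l => ?_) j
    · simp [splice_same, (Fin.succAbove_ne i k).symm]
    · rcases eq_or_ne l k with rfl | h
      · simp [splice_above]
      · simp [splice_above, h, i.succAbove_right_injective.ne h]
  rw [e]
  exact hu _ _ _ (by rwa [splice_above])

theorem gradLen_slice {u : (Fin (m + 1) → ℝ) → ℝ} (hu : Differentiable ℝ u) (z : ℝ) (y : Fin m → ℝ) :
    gradLen (slice u i z) y
      = Real.sqrt (∑ k, fderiv ℝ u (splice i z y) (Pi.single (i.succAbove k) 1) ^ 2) := by
  unfold gradLen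
  congr 1
  refine Finset.sum_congr rfl fun k _ => ?_
  have hd : DifferentiableAt ℝ (slice u i z) y := by
    refine (hu (splice i z y)).comp y (differentiableAt_pi.2 fun j => ?_)
    refine i.succAboveCases ?_ (fun l => ?_) j
    · simp only [splice_same]; fun_prop
    · simp only [splice_above]; fun_prop
  rw [← (hd.hasFDerivAt.hasLineDerivAt (Pi.single k 1)).lineDeriv,
    ← ((hu (splice i z y)).hasFDerivAt.hasLineDerivAt (Pi.single (i.succAbove k) 1)).lineDeriv]
  congr 1
  unfold lineDeriv
  congr 1
  funext t
  show u (splice i z (y + t • Pi.single k 1)) = _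
  rw [← Pi.single_smul, splice_add_single, ← Pi.single_smul]

/-- The cube is the product of the period and the smaller cube. -/
theorem splice_preserving (i : Fin (m + 1)) :
    MeasurePreserving (fun p : ℝ × (Fin m → ℝ) => splice i p.1 p.2)
      ((volume.restrict period).prod (volume.restrict (cube m))) (volume.restrict (cube (m + 1))) := by
  rw [Measure.prod_restrict]
  have h := (volume_preserving_piFinSuccAbove (fun _ : Fin (m + 1) => ℝ) i).symm
  have e : (MeasurableEquiv.piFinSuccAbove (fun _ : Fin (m + 1) => ℝ) i).symm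
      = fun p : ℝ × (Fin m → ℝ) => splice i p.1 p.2 := rfl
  rw [e] at h
  have hpre : (fun p : ℝ × (Fin m → ℝ) => splice i p.1 p.2) ⁻¹' cube (m + 1) = period ×ˢ cube m := by
    ext ⟨z, y⟩
    simp only [mem_preimage, cube, mem_univ_pi, mem_prod, period, Fin.forall_iff_succAbove i,
      splice_same, splice_above]
  exact hpre ▸ h.restrict_preimage cube_measurable

theorem integral_cube_succ {f : (Fin (m + 1) → ℝ) → ℝ} (hf : IntegrableOn f (cube (m + 1)))
    (i : Fin (m + 1)) :
    ∫ x in cube (m + 1), f x = ∫ z in period, ∫ y in cube m, f (splice i z y) ∧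
      Integrable (uncurry fun z y => f (splice i z y))
        ((volume.restrict period).prod (volume.restrict (cube m))) := by
  have hp := splice_preserving i
  have hint : Integrable (uncurry fun z y => f (splice i z y))
      ((volume.restrict period).prod (volume.restrict (cube m))) := hp.integrable_comp_of_integrable hf
  refine ⟨?_, hint⟩
  rw [← integral_map hp.measurable.aemeasurable (hp.map_eq ▸ hf.aestronglyMeasurable) |>.trans
    (integral_prod _ hint), hp.map_eq]

/-- The slice inequality. -/
theorem exists_slice_bound {E : Set (Fin (m + 1) → ℝ)} (hE : MeasurableSet E)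
    (hp : Periodic fun x => x ∈ E) {c : ℝ} (hc : TVLE (E.indicator fun _ => 1) c)
    (i : Fin (m + 1)) :
    ∃ L : ℝ → ℝ, (∀ z, 0 ≤ L z) ∧ Measurable L ∧ IntegrableOn L period ∧
      (∀ᵐ z ∂volume.restrict period, TVLE (slice (E.indicator fun _ => 1) i z) (L z)) ∧
      ∀ α β : ℝ → ℝ, Measurable α → ContDiff ℝ 1 β → (∀ z, β (z + 1) = β z) → (∀ z, 0 ≤ α z) →
        (∀ z, α z ^ 2 + β z ^ 2 ≤ 1) →
        (∫ z in period, α z * L z) +
          ∫ z in period, deriv β z * ∫ y in cube m, slice (E.indicator fun _ => 1) i z y ≤ c := by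
  set χ : (Fin (m + 1) → ℝ) → ℝ := E.indicator fun _ => 1
  have hχm : Measurable χ := measurable_const.indicator hE
  have hχb : ∀ x, |χ x| ≤ 1 := fun x => by by_cases hx : x ∈ E <;> simp [χ, hx]
  obtain ⟨u, hud, hlip, hper, h01, hgrad, htend⟩ := exists_smooth_approx hE hp hc
  choose K hK using hlip
  set g : ℕ → (Fin (m + 1) → ℝ) → ℝ := fun k x =>
    Real.sqrt (∑ j, fderiv ℝ (u k) x (Pi.single (i.succAbove j) 1) ^ 2)
  have hgm : ∀ k, Measurable (g k) := fun k => Real.continuous_sqrt.measurable.comp
    (Finset.measurable_fun_sum _ fun j _ => (measurable_fderiv_apply_const ℝ (u k) _).pow_const 2)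
  have hgle : ∀ k x, g k x ≤ gradLen (u k) x := fun k x => by
    refine Real.sqrt_le_sqrt ?_
    rw [Fin.sum_univ_succAbove _ i]
    exact le_add_of_nonneg_left (sq_nonneg _)
  have hgb : ∀ k x, |g k x| ≤ Real.sqrt ((m + 1 : ℕ) * (K k : ℝ) ^ 2) := fun k x => by
    rw [abs_of_nonneg (Real.sqrt_nonneg _)]
    exact (hgle k x).trans ((le_abs_self _).trans (gradLen_abs_le (hK k) x))
  set ℓ : ℕ → ℝ → ℝ := fun k z => ∫ y in cube m, g k (splice i z y)
  have hℓ0 : ∀ k z, 0 ≤ ℓ k z := fun k z => integral_nonneg fun y => Real.sqrt_nonneg _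
  have hsm : Measurable fun p : ℝ × (Fin m → ℝ) => splice i p.1 p.2 := (splice_preserving i).measurable
  have hℓm : ∀ k, Measurable (ℓ k) := fun k =>
    (StronglyMeasurable.integral_prod_right (f := fun z y => g k (splice i z y))
      ((hgm k).comp hsm).stronglyMeasurable).measurable
  set Le : ℝ → ℝ≥0∞ := fun z => liminf (fun k => ENNReal.ofReal (ℓ k z)) atTop
  have hLm : Measurable Le := Measurable.liminf fun k => (hℓm k).ennreal_ofReal
  set L : ℝ → ℝ := fun z => (Le z).toReal
  -- the key inequality for the approximations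
  have hk : ∀ k (α β : ℝ → ℝ), Measurable α → ContDiff ℝ 1 β → (∀ z, β (z + 1) = β z) →
      (∀ z, 0 ≤ α z) → (∀ z, α z ^ 2 + β z ^ 2 ≤ 1) →
      IntegrableOn (fun z => α z * ℓ k z) period ∧
      (∫ z in period, α z * ℓ k z) + ∫ z in period, deriv β z * ∫ y in cube m, slice (u k) i z y ≤ c := by
    intro k α β hαm hβ hβp hα0 hαβ
    have hα1 : ∀ z, |α z| ≤ 1 := fun z => by
      rw [abs_of_nonneg (hα0 z)]
      nlinarith [hαβ z, sq_nonneg (β z), hα0 z]
    set F : (Fin (m + 1) → ℝ) → Fin (m + 1) → ℝ := fun x j => if j = i then β (x i) else 0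
    have hF : TestField F := by
      refine ⟨contDiff_pi.2 fun j => ?_, fun l x => funext fun j => ?_, fun x => ?_⟩
      · simp only [F]
        split_ifs
        · exact hβ.comp (contDiff_apply ℝ ℝ i)
        · exact contDiff_const
      · simp only [F]
        split_ifs
        · rcases eq_or_ne i l with rfl | h
          · rw [Pi.add_apply, Pi.single_eq_same, hβp]
          · rw [Pi.add_apply, Pi.single_eq_of_ne h, add_zero]
        · rfl
      · simp only [F, ite_pow, zero_pow two_ne_zero, Finset.sum_ite_eq', Finset.mem_univ, if_true]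
        linarith [hαβ (x i), sq_nonneg (α (x i))]
    have hdiv : ∀ x, divergence F x = deriv β (x i) := fun x => by
      rw [divergence, Finset.sum_eq_single i]
      · simp only [F, if_true]
        have h1 : HasFDerivAt (fun y : Fin (m + 1) → ℝ => β (y i))
            (deriv β (x i) • (ContinuousLinearMap.proj i : (Fin (m + 1) → ℝ) →L[ℝ] ℝ)) x :=
          (((hβ.differentiable one_ne_zero) (x i)).hasDerivAt).comp_hasFDerivAt x (hasFDerivAt_apply i x)
        rw [h1.fderiv]
        simp
      · intro j _ hj
        simp [F, hj]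
      · exact fun h => absurd (Finset.mem_univ i) h
    obtain ⟨e, hI⟩ := integral_mul_divergence (hK k) (hper k) hF
    have e' : ∀ x, ∑ j, -(fderiv ℝ (u k) x (Pi.single j 1) * F x j)
        = -(fderiv ℝ (u k) x (Pi.single i 1) * β (x i)) := fun x => by
      rw [Finset.sum_eq_single i]
      · simp [F]
      · intro j _ hj; simp [F, hj]
      · exact fun h => absurd (Finset.mem_univ i) h
    obtain ⟨C, hC⟩ := hF.divergence_bound
    have hA : IntegrableOn (fun x => α (x i) * g k x) (cube (m + 1)) :=
      integrableOn_cube ((hαm.comp (measurable_pi_apply i)).mul (hgm k)) fun x => by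
        rw [abs_mul]
        exact mul_le_mul (hα1 _) (hgb k x) (abs_nonneg _) zero_le_one
    have hB : IntegrableOn (fun x => u k x * divergence F x) (cube (m + 1)) :=
      integrableOn_cube ((hK k).continuous.measurable.mul (divergence_measurable F)) (C := 1 * C)
        fun x => by
          rw [abs_mul]
          exact mul_le_mul (abs_le.2 ⟨by linarith [(h01 k x).1], (h01 k x).2⟩) (hC x) (abs_nonneg _)
            zero_le_one
    obtain ⟨eA, iA⟩ := integral_cube_succ hA i
    obtain ⟨eB, iB⟩ := integral_cube_succ hB i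
    have fA : (fun z => ∫ y in cube m, α (splice i z y i) * g k (splice i z y)) = fun z => α z * ℓ k z :=
      funext fun z => by simp only [splice_same, integral_const_mul, ℓ]
    have hEA : IntegrableOn (fun z => α z * ℓ k z) period := fA ▸ iA.integral_prod_left
    refine ⟨hEA, ?_⟩
    have eB' : ∫ z in period, deriv β z * ∫ y in cube m, slice (u k) i z y
        = ∫ x in cube (m + 1), u k x * divergence F x := by
      rw [eB]
      simp only [hdiv, splice_same, integral_mul_const, slice]
      simp_rw [mul_comm (deriv β _)]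
    rw [eB', e, ← fA, ← eA, ← integral_add hA hI]
    refine le_trans (integral_mono (hA.add hI) (integrableOn_cube (gradLen_measurable _)
      (gradLen_abs_le (hK k))) fun x => ?_) (hgrad k)
    show α (x i) * g k x + ∑ j, -(fderiv ℝ (u k) x (Pi.single j 1) * F x j) ≤ gradLen (u k) x
    rw [e']
    set G := fderiv ℝ (u k) x (Pi.single i 1)
    set s := g k x
    have hs0 : 0 ≤ s := Real.sqrt_nonneg _
    have hgl : gradLen (u k) x = Real.sqrt (G ^ 2 + s ^ 2) := by
      rw [gradLen, Fin.sum_univ_succAbove _ i, Real.sq_sqrt (by positivity)]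
    rw [hgl]
    refine le_trans (le_abs_self _) ?_
    rw [← Real.sqrt_sq_eq_abs]
    refine Real.sqrt_le_sqrt ?_
    nlinarith [mul_le_of_le_one_right (add_nonneg (sq_nonneg G) (sq_nonneg s)) (hαβ (x i)),
      sq_nonneg (α (x i) * G + β (x i) * s)]
  -- Fatou
  have hfat : ∀ α : ℝ → ℝ, Measurable α → (∀ z, 0 ≤ α z) → ∀ C : ℕ → ℝ, ∀ d : ℝ,
      (∀ k, IntegrableOn (fun z => α z * ℓ k z) period) →
      (∀ k, ∫ z in period, α z * ℓ k z ≤ C k) → Tendsto C atTop (𝓝 d) →
      ∫⁻ z in period, ENNReal.ofReal (α z) * Le z ≤ ENNReal.ofReal d := by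
    intro α hαm hα0 C d hint hC hd
    calc ∫⁻ z in period, ENNReal.ofReal (α z) * Le z
        ≤ ∫⁻ z in period, liminf (fun k => ENNReal.ofReal (α z * ℓ k z)) atTop := by
          refine lintegral_mono fun z => ?_
          simp only [Le, ENNReal.ofReal_mul (hα0 z)]
          rw [ENNReal.liminf_const_mul_of_ne_top ENNReal.ofReal_ne_top]
      _ ≤ liminf (fun k => ∫⁻ z in period, ENNReal.ofReal (α z * ℓ k z)) atTop :=
          lintegral_liminf_le fun k => (hαm.mul (hℓm k)).ennreal_ofReal
      _ ≤ liminf (fun k => ENNReal.ofReal (C k)) atTop := by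
          refine liminf_le_liminf (.of_forall fun k => ?_)
          rw [← ofReal_integral_eq_lintegral_ofReal (hint k)
            (.of_forall fun z => mul_nonneg (hα0 z) (hℓ0 k z))]
          exact ENNReal.ofReal_le_ofReal (hC k)
      _ = ENNReal.ofReal d := (ENNReal.tendsto_ofReal hd).liminf_eq
  have hone : ∀ k, IntegrableOn (fun z => (1 : ℝ) * ℓ k z) period ∧
      ∫ z in period, (1 : ℝ) * ℓ k z ≤ c := fun k => by
    simpa using hk k 1 0 measurable_const contDiff_const (fun _ => rfl) (fun _ => zero_le_one)
      fun _ => by norm_num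
  have hLfin : ∀ᵐ z ∂volume.restrict period, Le z < ∞ := by
    refine ae_lt_top hLm ?_
    refine ne_top_of_le_ne_top ENNReal.ofReal_ne_top (le_trans (le_of_eq ?_)
      (hfat 1 measurable_const (fun _ => zero_le_one) (fun _ => c) c (fun k => (hone k).1)
        (fun k => (hone k).2) tendsto_const_nhds))
    simp
  have hLint : IntegrableOn L period := integrable_toReal_of_lintegral_ne_top hLm.aemeasurable
    (ne_top_of_le_ne_top ENNReal.ofReal_ne_top (le_trans (le_of_eq (by simp))
      (hfat 1 measurable_const (fun _ => zero_le_one) (fun _ => c) c (fun k => (hone k).1)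
        (fun k => (hone k).2) tendsto_const_nhds)))
  have hslice : ∀ᵐ z ∂volume.restrict period, ∀ᵐ y ∂volume.restrict (cube m),
      Tendsto (fun k => slice (u k) i z y) atTop (𝓝 (slice χ i z y)) :=
    Measure.ae_ae_of_ae_prod ((splice_preserving i).quasiMeasurePreserving.ae htend)
  have hu1 : ∀ k z y, |slice (u k) i z y| ≤ 1 := fun k z y => by
    have h := h01 k (splice i z y)
    exact abs_le.2 ⟨by show -1 ≤ u k (splice i z y); linarith [h.1], h.2⟩
  refine ⟨L, fun z => ENNReal.toReal_nonneg, hLm.ennreal_toReal, hLint, ?_, ?_⟩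
  · filter_upwards [hLfin, hslice] with z hz hs F hF
    obtain ⟨C, hC⟩ := hF.divergence_bound
    have hmeas : ∀ k, Measurable fun y => slice (u k) i z y := fun k => (slice_lipschitz (hK k) z).continuous.measurable
    have hl := tendsto_setIntegral (f := fun k y => slice (u k) i z y * divergence F y) (C := 1 * C)
      (fun k => (hmeas k).mul (divergence_measurable F))
      (fun k y => by
        rw [abs_mul]
        exact mul_le_mul (hu1 k z y)
          (hC y) (abs_nonneg _) zero_le_one)
      (hs.mono fun y hy => hy.mul_const _)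
    have hb : ∀ k, ∫ y in cube m, slice (u k) i z y * divergence F y ≤ ℓ k z := fun k =>
      (tvle_of_lipschitz (slice_lipschitz (hK k) z) ((hper k).slice z) F hF).trans
        (le_of_eq (by simp only [gradLen_slice ((hud k).differentiable two_ne_zero), ℓ, g]))
    refine (ENNReal.ofReal_le_ofReal_iff ENNReal.toReal_nonneg).1 ?_
    rw [ENNReal.ofReal_toReal hz.ne, ← (ENNReal.tendsto_ofReal hl).liminf_eq]
    exact liminf_le_liminf (.of_forall fun k => ENNReal.ofReal_le_ofReal (hb k))
  · intro α β hαm hβ hβp hα0 hαβ
    set B : (ℝ → (Fin m → ℝ) → ℝ) → ℝ := fun w => ∫ z in period, deriv β z * ∫ y in cube m, w z y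
    obtain ⟨M, hM⟩ := (isCompact_Icc (a := (-1 : ℝ)) (b := 1)).exists_bound_of_continuousOn
      (hβ.continuous_deriv le_rfl).continuousOn
    have hlimB : Tendsto (fun k => B (slice (u k) i)) atTop (𝓝 (B (slice χ i))) := by
      refine tendsto_integral_of_dominated_convergence (fun _ => M * 1) (fun k => ?_) (integrable_const _)
        (fun k => ?_) ?_
      · exact ((hβ.continuous_deriv le_rfl).measurable.mul
          (StronglyMeasurable.integral_prod_right (f := fun z y => slice (u k) i z y)
            ((hK k).continuous.measurable.comp hsm).stronglyMeasurable).measurable).aestronglyMeasurable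
      · filter_upwards [ae_restrict_mem period_measurable] with z hz
        rw [Real.norm_eq_abs, abs_mul]
        refine mul_le_mul (hM z ⟨by linarith [hz.1], by linarith [hz.2]⟩) ?_ (abs_nonneg _)
          ((norm_nonneg _).trans (hM 0 (by norm_num)))
        simpa using norm_integral_le_of_norm_le_const (μ := volume.restrict (cube m)) (C := 1)
          (f := fun y => slice (u k) i z y) (.of_forall fun y => by
            rw [Real.norm_eq_abs]
            exact hu1 k z y)
      · filter_upwards [hslice] with z hz
        refine (tendsto_setIntegral (C := 1) (fun k => (slice_lipschitz (hK k) z).continuous.measurable)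
          (fun k y => hu1 k z y) hz).const_mul _
    have h1 := hfat α hαm hα0 (fun k => c - B (slice (u k) i)) (c - B (slice χ i))
      (fun k => (hk k α β hαm hβ hβp hα0 hαβ).1)
      (fun k => by have := (hk k α β hαm hβ hβp hα0 hαβ).2; simp only [B]; linarith)
      (tendsto_const_nhds.sub hlimB)
    have h0 : 0 ≤ c - B (slice χ i) := le_of_tendsto_of_tendsto' tendsto_const_nhds
      (tendsto_const_nhds.sub hlimB) fun k => by
        have := (hk k α β hαm hβ hβp hα0 hαβ).2
        have := setIntegral_nonneg (μ := volume) period_measurable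
          fun z _ => mul_nonneg (hα0 z) (hℓ0 k z)
        simp only [B]
        linarith
    have h2 : ∫ z in period, α z * L z ≤ c - B (slice χ i) := by
      rw [integral_eq_lintegral_of_nonneg_ae (.of_forall fun z => mul_nonneg (hα0 z) ENNReal.toReal_nonneg)
        (hαm.mul hLm.ennreal_toReal).aestronglyMeasurable]
      refine ENNReal.toReal_le_of_le_ofReal h0 (le_trans (lintegral_mono fun z => ?_) h1)
      rw [ENNReal.ofReal_mul (hα0 z)]
      exact mul_le_mul_right ENNReal.ofReal_toReal_le _
    simp only [B] at h2
    linarith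

end

end Vale.Agent.P232
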