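import Vale.Agent.P232.Perim.Rearrange

/-!
# P232: symmetrisation of periodic sets

Every periodic measurable set can be replaced by one which is symmetric decreasing in each coordinate,
of the same volume and no larger perimeter.
-/

namespace Vale.Agent.P232

open MeasureTheory Set Function Filter Topology
open scoped NNReal ContDiff Convolution

noncomputable section

variable {n : ℕ}

theorem TestField.translate {F : (Fin n → ℝ) → Fin n → ℝ} (hF : TestField F) (t : Fin n → ℝ) :
    TestField fun x => F (x + t) :=
  ⟨hF.contDiff.comp (contDiff_id.add contDiff_const), hF.periodic.comp_translate t, fun _ => hF.sq_le _⟩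

theorem divergence_periodic {F : (Fin n → ℝ) → Fin n → ℝ} (hF : Periodic F) :
    Periodic (divergence F) := fun j x => Finset.sum_congr rfl fun i _ => by
  rw [(hF.comp_left fun v => v i).fderiv j x]

theorem divergence_translate (F : (Fin n → ℝ) → Fin n → ℝ) (t x : Fin n → ℝ) :
    divergence (fun y => F (y + t)) x = divergence F (x + t) :=
  Finset.sum_congr rfl fun i _ => by
    exact congrArg (fun D : (Fin n → ℝ) →L[ℝ] ℝ => D (Pi.single i 1))
      (fderiv_comp_add_right (f := fun z => F z i) t)

/-- A smooth periodic function with values in `[0, 1]`: gradient integral at most the total variation. -/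
theorem gradLen_le_of_tvle {u : (Fin n → ℝ) → ℝ} {K : ℝ≥0} (hu : ContDiff ℝ 2 u)
    (hl : LipschitzWith K u) (hp : Periodic u) {c : ℝ} (h : TVLE u c) :
    ∫ x in cube n, gradLen u x ≤ c := by
  suffices key : ∀ ε : ℝ, 0 < ε → ∫ x in cube n, gradLen u x ≤ c + ε from
    le_of_forall_pos_le_add key
  intro ε hε
  set g : (Fin n → ℝ) → Fin n → ℝ := fun x i => fderiv ℝ u x (Pi.single i 1)
  set q : (Fin n → ℝ) → ℝ := fun x => Real.sqrt (∑ i, g x i ^ 2 + ε ^ 2)
  have hq : ∀ x, 0 < q x := fun x => Real.sqrt_pos.2 (by positivity)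
  have hg : ∀ i, ContDiff ℝ 1 fun x => g x i := fun i =>
    (hu.fderiv_right le_rfl).clm_apply contDiff_const
  have hqd : ContDiff ℝ 1 q :=
    ((ContDiff.sum fun i _ => (hg i).pow 2).add contDiff_const).sqrt fun x => by positivity
  have hqp : ∀ i x, g (x + Pi.single i 1) = g x := fun i x => funext fun k => by
    simp only [g, hp.fderiv i x]
  set F : (Fin n → ℝ) → Fin n → ℝ := fun x i => -(g x i) / q x
  have hF : TestField F := by
    refine ⟨contDiff_pi.2 fun i => (hg i).neg.div hqd fun x => (hq x).ne', fun i x => ?_, fun x => ?_⟩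
    · simp only [F, q, hqp i x]
    · simp only [F, div_pow, neg_sq, ← Finset.sum_div]
      rw [div_le_one (pow_pos (hq x) 2), Real.sq_sqrt (by positivity)]
      linarith [sq_nonneg ε]
  obtain ⟨e, hI⟩ := integral_mul_divergence hl hp hF
  have := h F hF
  rw [e] at this
  refine le_trans ?_ (add_le_add_left this ε)
  calc ∫ x in cube n, gradLen u x
      ≤ ∫ x in cube n, ((∑ i, -(fderiv ℝ u x (Pi.single i 1) * F x i)) + ε) := by
        refine integral_mono (integrableOn_cube (gradLen_measurable u) (gradLen_abs_le hl))
          (hI.add (integrable_const ε)) fun x => ?_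
        have e1 : ∑ i, -(fderiv ℝ u x (Pi.single i 1) * F x i) = (∑ i, g x i ^ 2) / q x := by
          rw [Finset.sum_div]
          refine Finset.sum_congr rfl fun i _ => ?_
          simp only [F, g]
          ring
        rw [e1]
        set s := ∑ i, g x i ^ 2
        have hs : 0 ≤ s := by positivity
        have hgs : gradLen u x = Real.sqrt s := rfl
        rw [hgs, show (s / q x + ε : ℝ) = (s + ε * q x) / q x by field_simp [(hq x).ne'],
          le_div_iff₀ (hq x)]
        have h1 := Real.sqrt_nonneg s
        have h2 := Real.sq_sqrt hs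
        have h3 : q x ^ 2 = s + ε ^ 2 := Real.sq_sqrt (by positivity)
        have h4 : Real.sqrt s ≤ q x := Real.sqrt_le_sqrt (by linarith [sq_nonneg ε])
        have h5 : q x ≤ Real.sqrt s + ε := by nlinarith [hq x]
        nlinarith [mul_le_mul_of_nonneg_left h5 h1, mul_le_mul_of_nonneg_left h4 hε.le]
    _ = _ := by
        rw [integral_add hI (integrable_const ε)]
        simp

/-- Smooth periodic approximations of a periodic set. -/
theorem exists_smooth_approx {E : Set (Fin n → ℝ)} (hE : MeasurableSet E)
    (hp : Periodic fun x => x ∈ E) {c : ℝ} (hc : TVLE (E.indicator fun _ => 1) c) :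
    ∃ u : ℕ → (Fin n → ℝ) → ℝ, (∀ k, ContDiff ℝ 2 (u k)) ∧
      (∀ k, ∃ K, LipschitzWith K (u k)) ∧ (∀ k, Periodic (u k)) ∧
      (∀ k x, u k x ∈ Icc (0 : ℝ) 1) ∧ (∀ k, ∫ x in cube n, gradLen (u k) x ≤ c) ∧
      ∀ᵐ x ∂volume.restrict (cube n),
        Tendsto (fun k => u k x) atTop (𝓝 (E.indicator (fun _ => 1) x)) := by
  set χ : (Fin n → ℝ) → ℝ := E.indicator fun _ => 1
  have hχm : Measurable χ := measurable_const.indicator hE
  have hχ01 : ∀ x, χ x ∈ Icc (0 : ℝ) 1 := fun x => by
    by_cases hx : x ∈ E <;> simp [χ, hx]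
  have hχp : Periodic χ := fun i x => by
    have h : (x + Pi.single i 1 ∈ E) = (x ∈ E) := hp i x
    by_cases hx : x ∈ E
    · rw [show χ x = 1 from indicator_of_mem hx _, show χ (x + Pi.single i 1) = 1 from indicator_of_mem (h.mpr hx) _]
    · rw [show χ x = 0 from indicator_of_notMem hx _,
        show χ (x + Pi.single i 1) = 0 from indicator_of_notMem (fun h' => hx (h.mp h')) _]
  have hloc : LocallyIntegrable χ volume := fun x => by
    refine ⟨Metric.ball x 1, Metric.ball_mem_nhds x one_pos, ?_⟩
    have : IsFiniteMeasure (volume.restrict (Metric.ball x 1)) :=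
      isFiniteMeasure_restrict.2 measure_ball_lt_top.ne
    exact Integrable.of_bound hχm.aestronglyMeasurable 1 (.of_forall fun y => by
      rw [Real.norm_eq_abs, abs_of_nonneg (hχ01 y).1]; exact (hχ01 y).2)
  set β : ℕ → ContDiffBump (0 : Fin n → ℝ) := fun k =>
    ⟨1 / ((k : ℝ) + 1), 2 / ((k : ℝ) + 1), by positivity, by gcongr; norm_num⟩
  set u : ℕ → (Fin n → ℝ) → ℝ := fun k => (β k).normed volume ⋆[ContinuousLinearMap.lsmul ℝ ℝ, volume] χ
  have hu : ∀ k x, u k x = ∫ t, (β k).normed volume t * χ (x - t) := fun k x => rfl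
  have hsm : ∀ k, ContDiff ℝ 2 (u k) := fun k =>
    (β k).hasCompactSupport_normed.contDiff_convolution_left _ (β k).contDiff_normed hloc
  have hper : ∀ k, Periodic (u k) := fun k i x => by
    simp only [hu]
    congr 1 with t
    rw [add_sub_right_comm, hχp]
  have hint : ∀ k x, Integrable fun t => (β k).normed volume t * χ (x - t) := fun k x =>
    Integrable.mono' (β k).integrable_normed
      ((β k).continuous_normed.measurable.mul (hχm.comp (measurable_const.sub measurable_id))).aestronglyMeasurable
      (.of_forall fun t => by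
        rw [Real.norm_eq_abs, abs_mul, abs_of_nonneg ((β k).nonneg_normed t),
          abs_of_nonneg (hχ01 _).1]
        exact mul_le_of_le_one_right ((β k).nonneg_normed t) (hχ01 _).2)
  have h01 : ∀ k x, u k x ∈ Icc (0 : ℝ) 1 := fun k x => by
    refine ⟨integral_nonneg fun t => mul_nonneg ((β k).nonneg_normed t) (hχ01 _).1, ?_⟩
    rw [hu, ← (β k).integral_normed (μ := volume)]
    exact integral_mono (hint k x) (β k).integrable_normed fun t =>
      mul_le_of_le_one_right ((β k).nonneg_normed t) (hχ01 _).2
  have hlip : ∀ k, ∃ K, LipschitzWith K (u k) := fun k => by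
    obtain ⟨C, hC⟩ := (hper k).fderiv.bounded ((hsm k).continuous_fderiv two_ne_zero)
    exact ⟨C.toNNReal, lipschitzWith_of_nnnorm_fderiv_le ((hsm k).differentiable two_ne_zero)
      fun x => by rw [← NNReal.coe_le_coe]; simpa using (hC x).trans (le_max_left C 0)⟩
  have htv : ∀ k, TVLE (u k) c := fun k F hF => by
    obtain ⟨C, hC⟩ := hF.divergence_bound
    have hdm := divergence_measurable F
    have hfub : Integrable (uncurry fun x t => (β k).normed volume t * χ (x - t) * divergence F x)
        ((volume.restrict (cube n)).prod volume) := by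
      refine Integrable.mono' ((integrable_const C).mul_prod (β k).integrable_normed)
        ((((β k).continuous_normed.measurable.comp measurable_snd).mul
          (hχm.comp (measurable_fst.sub measurable_snd))).mul (hdm.comp measurable_fst)).aestronglyMeasurable
        (.of_forall fun ⟨x, t⟩ => ?_)
      simp only [uncurry_apply_pair, Real.norm_eq_abs, abs_mul, abs_of_nonneg ((β k).nonneg_normed t),
        abs_of_nonneg (hχ01 (x - t)).1]
      rw [mul_comm C]
      exact mul_le_mul (mul_le_of_le_one_right ((β k).nonneg_normed t) (hχ01 _).2) (hC x)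
        (abs_nonneg _) ((β k).nonneg_normed t)
    calc ∫ x in cube n, u k x * divergence F x
        = ∫ x in cube n, ∫ t, (β k).normed volume t * χ (x - t) * divergence F x := by
          simp only [hu, integral_mul_const]
      _ = ∫ t, ∫ x in cube n, (β k).normed volume t * χ (x - t) * divergence F x :=
          integral_integral_swap hfub
      _ ≤ ∫ t, (β k).normed volume t * c := by
          refine integral_mono hfub.integral_prod_right ((β k).integrable_normed.mul_const c) fun t => ?_
          simp only [mul_assoc, integral_const_mul]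
          refine mul_le_mul_of_nonneg_left ?_ ((β k).nonneg_normed t)
          have hq : Periodic fun x => χ (x - t) * divergence F x := fun i x => by
            simp only [add_sub_right_comm, hχp _ _, divergence_periodic hF.periodic i x]
          rw [← hq.integral_translate t]
          have := hc _ (hF.translate t)
          simpa only [add_sub_cancel_right, divergence_translate] using this
      _ = c := by rw [integral_mul_const, (β k).integral_normed, one_mul]
  refine ⟨u, hsm, hlip, hper, h01, fun k => ?_, ae_restrict_of_ae ?_⟩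
  · obtain ⟨K, hK⟩ := hlip k
    exact gradLen_le_of_tvle (hsm k) hK (hper k) (htv k)
  · refine ContDiffBump.ae_convolution_tendsto_right_of_locallyIntegrable (K := 2) ?_ ?_ hloc
    · simpa [β, div_eq_mul_inv] using
        (tendsto_one_div_add_atTop_nhds_zero_nat (𝕜 := ℝ)).const_mul 2
    · exact .of_forall fun k => le_of_eq (by simp only [β]; ring)

/-- Symmetrisation. -/
theorem exists_symmetrisation {E : Set (Fin n → ℝ)} (hE : MeasurableSet E)
    (hp : Periodic fun x => x ∈ E) {c : ℝ} (hc : TVLE (E.indicator fun _ => 1) c) :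
    ∃ E' : Set (Fin n → ℝ), MeasurableSet E' ∧ Periodic (fun x => x ∈ E') ∧
      SymmDecr (E'.indicator fun _ => 1) ∧ volume (cube n ∩ E') = volume (cube n ∩ E) ∧
      TVLE (E'.indicator fun _ => 1) c := by
  obtain ⟨u, -, hlip, hper, h01, hgrad, htend⟩ := exists_smooth_approx hE hp hc
  choose K hK using hlip
  choose v hvK hvp hv01 hvs hvtv hvd using fun k => exists_rearrange (hK k) (hper k) (h01 k)
  obtain ⟨φ, hφ, hconv⟩ := symmDecr_subseq v (fun k => (hvK k).continuous.measurable) hvs hv01
  set f : (Fin n → ℝ) → ℝ := fun x => limsup (fun k => v (φ k) x) atTop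
  have hab : ∀ k x, |v k x| ≤ 1 := fun k x => abs_le.2 ⟨by linarith [(hv01 k x).1], (hv01 k x).2⟩
  have bdA : ∀ x, IsBoundedUnder (· ≤ ·) atTop fun k => v (φ k) x := fun x =>
    ⟨1, eventually_map.2 (.of_forall fun k => (hv01 _ x).2)⟩
  have bdB : ∀ x, IsBoundedUnder (· ≥ ·) atTop fun k => v (φ k) x := fun x =>
    ⟨0, eventually_map.2 (.of_forall fun k => (hv01 _ x).1)⟩
  have hf1 : ∀ x, f x ≤ 1 := fun x =>
    limsup_le_of_le (bdB x).isCoboundedUnder_le (.of_forall fun k => (hv01 _ x).2)
  have hfp : Periodic f := fun i x => by simp only [f, fun k => hvp k i x]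
  have hfs : SymmDecr f := fun x j y hy =>
    limsup_le_limsup (.of_forall fun k => hvs (φ k) x j y hy) (bdB _).isCoboundedUnder_le (bdA _)
  have hfm : Measurable f := Measurable.limsup fun k => (hvK _).continuous.measurable
  have hflim : ∀ᵐ x ∂volume.restrict (cube n), Tendsto (fun k => v (φ k) x) atTop (𝓝 (f x)) := by
    filter_upwards [hconv] with x ⟨l, hl⟩
    simpa only [f, hl.limsup_eq] using hl
  have hdist : ∀ g : ℝ → ℝ, Continuous g → ∫ x in cube n, g (f x)
      = ∫ x in cube n, g (E.indicator (fun _ => 1) x) := fun g hg => by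
    obtain ⟨G, hG⟩ := isCompact_Icc.exists_bound_of_continuousOn (hg.continuousOn (s := Icc (0 : ℝ) 1))
    have h1 := tendsto_setIntegral (f := fun k x => g (v (φ k) x)) (C := G)
      (fun k => (hg.comp (hvK _).continuous).measurable) (fun k x => hG _ (hv01 _ x))
      (hflim.mono fun x hx => (hg.tendsto _).comp hx)
    have h2 := tendsto_setIntegral (f := fun k x => g (u k x)) (C := G)
      (fun k => (hg.comp (hK _).continuous).measurable) (fun k x => hG _ (h01 _ x))
      (htend.mono fun x hx => (hg.tendsto _).comp hx)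
    exact tendsto_nhds_unique h1
      ((h2.comp hφ.tendsto_atTop).congr fun k => (hvd (φ k) g hg).symm)
  set E' := {x | f x = 1}
  have hE' : MeasurableSet E' := hfm (measurableSet_singleton 1)
  have hsym : SymmDecr (E'.indicator fun _ => (1 : ℝ)) := fun x j y hy => by
    by_cases hyE : update x j y ∈ E'
    · have hxE : x ∈ E' := le_antisymm (hf1 x) (hyE.symm.le.trans (hfs x j y hy))
      simp [hxE, hyE]
    · rw [indicator_of_notMem hyE]
      exact indicator_nonneg (fun _ _ => zero_le_one) _
  have h01' : ∀ᵐ x ∂volume.restrict (cube n), f x ∈ Icc (0 : ℝ) 1 :=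
    hflim.mono fun x hx => isClosed_Icc.mem_of_tendsto hx (.of_forall fun k => hv01 _ x)
  have heq : f =ᵐ[volume.restrict (cube n)] E'.indicator fun _ => 1 := by
    have hz := hdist (fun t => t * (1 - t)) (by fun_prop)
    have hz' : ∫ x in cube n, f x * (1 - f x) = 0 := by
      rw [hz]
      refine integral_eq_zero_of_ae (.of_forall fun x => ?_)
      by_cases hx : x ∈ E <;> simp [hx]
    have hi : IntegrableOn (fun x => f x * (1 - f x)) (cube n) := by
      refine Integrable.of_bound (hfm.mul (measurable_const.sub hfm)).aestronglyMeasurable 1 ?_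
      filter_upwards [h01'] with x hx
      rw [Real.norm_eq_abs, abs_of_nonneg (mul_nonneg hx.1 (sub_nonneg.2 hx.2))]
      nlinarith [hx.1, hx.2]
    have := (integral_eq_zero_iff_of_nonneg_ae
      (h01'.mono fun x hx => mul_nonneg hx.1 (sub_nonneg.2 hx.2)) hi).1 hz'
    filter_upwards [this] with x hx
    rcases mul_eq_zero.1 hx with h | h
    · rw [indicator_of_notMem (show x ∉ E' by simp [E', h]), h]
    · have h1 : f x = 1 := by linarith
      rw [indicator_of_mem (show x ∈ E' from h1), h1]
  refine ⟨E', hE', fun i x => by simp only [E', mem_ofPred_eq, hfp i x], hsym, ?_, ?_⟩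
  · have h1 := hdist id continuous_id
    simp only [id] at h1
    rw [integral_congr_ae heq, integral_indicator_const _ hE', integral_indicator_const _ hE,
      measureReal_restrict_apply hE', measureReal_restrict_apply hE, smul_eq_mul, mul_one,
      smul_eq_mul, mul_one, measureReal_def, measureReal_def,
      ENNReal.toReal_eq_toReal_iff' (measure_ne_top_of_subset inter_subset_right cube_finite)
        (measure_ne_top_of_subset inter_subset_right cube_finite)] at h1
    rwa [inter_comm, inter_comm (cube n)]
  · exact TVLE.of_tendsto (c := fun _ => c) (fun k => (hvK (φ k)).continuous.measurable)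
      (fun k x => hab _ x) (by filter_upwards [hflim, heq] with x h1 h2; rwa [← h2])
      (fun k F hF => (hvtv (φ k) F hF).trans (hgrad _)) tendsto_const_nhds

theorem tvle_iff_perimeter {E : Set (Fin n → ℝ)} (hE : MeasurableSet E) {c : ℝ} (hc : 0 ≤ c) :
    TVLE (E.indicator fun _ => 1) c ↔ perimeter E ≤ ENNReal.ofReal c := by
  have e : ∀ F : (Fin n → ℝ) → Fin n → ℝ,
      ∫ x in cube n, E.indicator (fun _ => (1 : ℝ)) x * divergence F x
        = ∫ x in cube n ∩ E, divergence F x := fun F => by
    rw [← setIntegral_indicator hE]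
    refine integral_congr_ae (.of_forall fun x => ?_)
    by_cases hx : x ∈ E <;> simp [hx]
  simp only [perimeter, iSup_le_iff, TVLE, e, ENNReal.ofReal_le_ofReal_iff hc]

/-- Symmetrisation does not increase the perimeter. -/
theorem exists_symm_perimeter {E : Set (Fin n → ℝ)} (hE : MeasurableSet E)
    (hp : Periodic fun x => x ∈ E) (h : perimeter E ≠ ⊤) :
    ∃ E' : Set (Fin n → ℝ), MeasurableSet E' ∧ Periodic (fun x => x ∈ E') ∧
      SymmDecr (E'.indicator fun _ => 1) ∧ volume (cube n ∩ E') = volume (cube n ∩ E) ∧
      perimeter E' ≤ perimeter E := by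
  obtain ⟨E', h1, h2, h3, h4, h5⟩ := exists_symmetrisation hE hp
    ((tvle_iff_perimeter hE ENNReal.toReal_nonneg).2 (ENNReal.ofReal_toReal h).ge)
  exact ⟨E', h1, h2, h3, h4,
    ((tvle_iff_perimeter h1 ENNReal.toReal_nonneg).1 h5).trans (ENNReal.ofReal_toReal h).le⟩

end

end Vale.Agent.P232
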