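import Vale.Agent.P232.Perim.Basic

/-!
# P232: the total variation of periodic Lipschitz functions
-/

namespace Vale.Agent.P232

open MeasureTheory Set Function Filter Topology
open scoped NNReal

noncomputable section

variable {n : ℕ}

/-- The euclidean length of the gradient. -/
def gradLen (u : (Fin n → ℝ) → ℝ) (x : Fin n → ℝ) : ℝ :=
  Real.sqrt (∑ i, fderiv ℝ u x (Pi.single i 1) ^ 2)

theorem Periodic.fderiv {F : Type*} [NormedAddCommGroup F] [NormedSpace ℝ F]
    {u : (Fin n → ℝ) → F} (hu : Periodic u) : Periodic (fderiv ℝ u) := fun i x => by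
  rw [← fderiv_comp_add_right (Pi.single i 1)]
  exact congrArg (fun f => _root_.fderiv ℝ f x) (funext fun y => hu i y)

theorem gradLen_periodic {u : (Fin n → ℝ) → ℝ} (hu : Periodic u) : Periodic (gradLen u) :=
  hu.fderiv.comp_left fun D : (Fin n → ℝ) →L[ℝ] ℝ => Real.sqrt (∑ j, D (Pi.single j 1) ^ 2)

theorem gradLen_measurable (u : (Fin n → ℝ) → ℝ) : Measurable (gradLen u) :=
  Real.continuous_sqrt.measurable.comp
    (Finset.measurable_fun_sum _ fun i _ => (measurable_fderiv_apply_const ℝ u _).pow_const 2)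

theorem fderiv_single_abs_le {u : (Fin n → ℝ) → ℝ} {K : ℝ≥0} (hu : LipschitzWith K u)
    (x : Fin n → ℝ) (i : Fin n) : |fderiv ℝ u x (Pi.single i 1)| ≤ K := by
  have h := (fderiv ℝ u x).le_opNorm (Pi.single i 1)
  rw [Real.norm_eq_abs, Pi.norm_single, norm_one, mul_one] at h
  exact h.trans (norm_fderiv_le_of_lipschitz ℝ hu)

theorem gradLen_abs_le {u : (Fin n → ℝ) → ℝ} {K : ℝ≥0} (hu : LipschitzWith K u)
    (x : Fin n → ℝ) : |gradLen u x| ≤ Real.sqrt (n * (K : ℝ) ^ 2) := by
  rw [gradLen, abs_of_nonneg (Real.sqrt_nonneg _)]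
  refine Real.sqrt_le_sqrt ((Finset.sum_le_sum fun i _ =>
    sq_le_sq' (abs_le.1 (fderiv_single_abs_le hu x i)).1 (abs_le.1 (fderiv_single_abs_le hu x i)).2).trans ?_)
  simp

theorem exists_nearest (x : Fin n → ℝ) : ∃ g : lattice n, g +ᵥ x ∈ cube n := by
  have h : ∀ i, ∃! k : ℤ, x i + k • (1 : ℝ) ∈ Ioc (-(1 / 2) : ℝ) (-(1 / 2) + 1) := fun i =>
    existsUnique_add_zsmul_mem_Ioc one_pos (x i) (-(1 / 2))
  choose k hk hk' using h
  refine ⟨⟨fun i => (k i : ℝ), mem_lattice.2 ⟨k, rfl⟩⟩, fun i _ => ?_⟩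
  have := hk i
  simp only [zsmul_one, mem_Ioc] at this
  show (k i : ℝ) + x i ∈ _
  constructor <;> linarith [this.1, this.2]

/-- A continuous periodic function is bounded. -/
theorem Periodic.bounded {F : Type*} [NormedAddCommGroup F] {u : (Fin n → ℝ) → F}
    (hu : Periodic u) (hc : Continuous u) : ∃ C, ∀ x, ‖u x‖ ≤ C := by
  obtain ⟨C, hC⟩ := (isCompact_univ_pi fun _ : Fin n => isCompact_Icc (a := (-1 : ℝ)) (b := 1)
    ).exists_bound_of_continuousOn hc.continuousOn
  refine ⟨C, fun x => ?_⟩
  obtain ⟨g, hg⟩ := exists_nearest x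
  rw [← hu.vadd g x]
  exact hC _ fun i _ => ⟨by linarith [(hg i (mem_univ i)).1], by linarith [(hg i (mem_univ i)).2]⟩

theorem TestField.abs_le {F : (Fin n → ℝ) → Fin n → ℝ} (hF : TestField F) (x : Fin n → ℝ)
    (i : Fin n) : |F x i| ≤ 1 :=
  abs_le_one_iff_mul_self_le_one.2 (by
    have := Finset.single_le_sum (f := fun i => F x i ^ 2) (fun i _ => sq_nonneg _) (Finset.mem_univ i)
    rw [← sq]
    exact this.trans (hF.sq_le x))

theorem TestField.coord {F : (Fin n → ℝ) → Fin n → ℝ} (hF : TestField F) (i : Fin n) :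
    ContDiff ℝ 1 fun y => F y i :=
  contDiff_pi.1 hF.contDiff i

theorem TestField.lipschitz {F : (Fin n → ℝ) → Fin n → ℝ} (hF : TestField F) (i : Fin n) :
    ∃ K : ℝ≥0, LipschitzWith K fun y => F y i := by
  have hper : Periodic fun y => F y i := hF.periodic.comp_left fun v => v i
  obtain ⟨C, hC⟩ := hper.fderiv.bounded ((hF.coord i).continuous_fderiv one_ne_zero)
  exact ⟨C.toNNReal, lipschitzWith_of_nnnorm_fderiv_le ((hF.coord i).differentiable one_ne_zero)
    fun x => by rw [← NNReal.coe_le_coe]; simpa using (hC x).trans (le_max_left C 0)⟩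

/-- Difference quotients of a Lipschitz function are bounded. -/
theorem quotient_bound {u : (Fin n → ℝ) → ℝ} {K : ℝ≥0} (hu : LipschitzWith K u)
    (x : Fin n → ℝ) (i : Fin n) (h : ℝ) : |(u (x + h • Pi.single i 1) - u x) / h| ≤ K := by
  rcases eq_or_ne h 0 with rfl | hh
  · simp
  rw [abs_div, div_le_iff₀ (abs_pos.2 hh), ← Real.dist_eq]
  refine (hu.dist_le_mul _ _).trans (le_of_eq ?_)
  rw [dist_eq_norm, add_sub_cancel_left, norm_smul, Pi.norm_single, norm_one, mul_one,
    Real.norm_eq_abs]

theorem quotient_tendsto {u : (Fin n → ℝ) → ℝ} {x v : Fin n → ℝ} (hu : DifferentiableAt ℝ u x) :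
    Tendsto (fun h : ℝ => (u (x + h • v) - u x) / h) (𝓝[≠] 0) (𝓝 (fderiv ℝ u x v)) := by
  have := (hu.hasFDerivAt.hasLineDerivAt v).tendsto_slope_zero
  simpa [smul_eq_mul, div_eq_inv_mul] using this

/-- Integration by parts against a test field. -/
theorem integral_mul_divergence {u : (Fin n → ℝ) → ℝ} {K : ℝ≥0} (hu : LipschitzWith K u)
    (hp : Periodic u) {F : (Fin n → ℝ) → Fin n → ℝ} (hF : TestField F) :
    ∫ x in cube n, u x * divergence F x
      = ∫ x in cube n, ∑ i, -(fderiv ℝ u x (Pi.single i 1) * F x i) ∧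
    IntegrableOn (fun x => ∑ i, -(fderiv ℝ u x (Pi.single i 1) * F x i)) (cube n) := by
  set s : ℕ → ℝ := fun k => 1 / ((k : ℝ) + 1)
  have hs0 : ∀ k, s k ≠ 0 := fun k => by positivity
  have hs : Tendsto s atTop (𝓝[≠] 0) :=
    tendsto_nhdsWithin_iff.2 ⟨tendsto_one_div_add_atTop_nhds_zero_nat, .of_forall fun k => hs0 k⟩
  have hs' : Tendsto (fun k => -s k) atTop (𝓝[≠] 0) := by
    refine tendsto_nhdsWithin_iff.2 ⟨?_, .of_forall fun k => by simpa using hs0 k⟩
    simpa [s] using (tendsto_one_div_add_atTop_nhds_zero_nat (𝕜 := ℝ)).neg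
  obtain ⟨B, hB⟩ := hp.bounded hu.continuous
  have hcu := hu.continuous
  set d : ℕ → Fin n → (Fin n → ℝ) → ℝ := fun k i x =>
    (u (x + (-s k) • Pi.single i 1) - u x) / (-s k)
  have hswap : ∀ k i, ∫ x in cube n, u x * ((F (x + s k • Pi.single i 1) i - F x i) / s k)
      = -∫ x in cube n, d k i x * F x i := by
    intro k i
    have hFc : Continuous fun x => F x i := (hF.coord i).continuous
    have hper : Periodic fun x => u (x + (-s k) • Pi.single i 1) * F x i / s k := fun j x => by
      show u (x + Pi.single j 1 + _) * F (x + Pi.single j 1) i / s k = _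
      rw [add_right_comm, hp, hF.periodic]
    have e := hper.integral_translate (s k • Pi.single i 1)
    have int : ∀ {f : (Fin n → ℝ) → ℝ}, Continuous f → (∃ C, ∀ x, |f x| ≤ C) →
        IntegrableOn f (cube n) := fun hf ⟨C, hC⟩ => integrableOn_cube hf.measurable hC
    have bd : ∀ a b : Fin n → ℝ, |u a * F b i / s k| ≤ B / |s k| := fun a b => by
      rw [abs_div, abs_mul]
      gcongr
      calc |u a| * |F b i| ≤ B * 1 := mul_le_mul (hB a) (hF.abs_le b i) (abs_nonneg _)
            ((norm_nonneg _).trans (hB a))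
        _ = B := mul_one B
    simp only [add_assoc, ← add_smul, add_neg_cancel, zero_smul, add_zero] at e
    have h1 : ∀ x, u x * ((F (x + s k • Pi.single i 1) i - F x i) / s k)
        = u x * F (x + s k • Pi.single i 1) i / s k - u x * F x i / s k := fun x => by ring
    have h2 : ∀ x, d k i x * F x i
        = u x * F x i / s k - u (x + (-s k) • Pi.single i 1) * F x i / s k := fun x => by
      simp only [d]
      field_simp
      ring
    simp only [h1, h2]
    rw [integral_sub (int (by fun_prop) ⟨_, fun x => bd _ _⟩) (int (by fun_prop) ⟨_, fun x => bd _ _⟩),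
      integral_sub (int (by fun_prop) ⟨_, fun x => bd _ _⟩) (int (by fun_prop) ⟨_, fun x => bd _ _⟩), e]
    ring
  have hdd : ∀ᵐ x ∂volume.restrict (cube n), DifferentiableAt ℝ u x :=
    ae_restrict_of_ae hu.ae_differentiableAt
  have hlim1 : ∀ i, Tendsto (fun k => ∫ x in cube n, d k i x * F x i) atTop
      (𝓝 (∫ x in cube n, fderiv ℝ u x (Pi.single i 1) * F x i)) := fun i => by
    refine tendsto_integral_of_dominated_convergence (fun _ => (K : ℝ)) (fun k => ?_)
      (integrable_const _) (fun k => .of_forall fun x => ?_) ?_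
    · have := (hF.coord i).continuous
      exact (show Continuous fun x => d k i x * F x i by fun_prop).aestronglyMeasurable
    · rw [Real.norm_eq_abs, abs_mul, ← mul_one (K : ℝ)]
      exact mul_le_mul (quotient_bound hu x i _) (hF.abs_le x i) (abs_nonneg _) K.2
    · filter_upwards [hdd] with x hx
      exact ((quotient_tendsto hx).comp hs').mul_const _
  have hlim2 : ∀ i, Tendsto
      (fun k => ∫ x in cube n, u x * ((F (x + s k • Pi.single i 1) i - F x i) / s k)) atTop
      (𝓝 (∫ x in cube n, u x * fderiv ℝ (fun y => F y i) x (Pi.single i 1))) := fun i => by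
    obtain ⟨M, hM⟩ := hF.lipschitz i
    refine tendsto_integral_of_dominated_convergence (fun _ => B * M) (fun k => ?_)
      (integrable_const _) (fun k => .of_forall fun x => ?_) (.of_forall fun x => ?_)
    · have := (hF.coord i).continuous
      exact (show Continuous fun x => u x * ((F (x + s k • Pi.single i 1) i - F x i) / s k) by
        fun_prop).aestronglyMeasurable
    · rw [Real.norm_eq_abs, abs_mul]
      exact mul_le_mul (hB x) (quotient_bound hM x i _) (abs_nonneg _) ((norm_nonneg _).trans (hB x))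
    · exact ((quotient_tendsto (((hF.coord i).differentiable one_ne_zero) x)).comp hs).const_mul _
  have hint : ∀ i, ∫ x in cube n, u x * fderiv ℝ (fun y => F y i) x (Pi.single i 1)
      = -∫ x in cube n, fderiv ℝ u x (Pi.single i 1) * F x i := fun i =>
    tendsto_nhds_unique (hlim2 i) (by simpa only [hswap] using (hlim1 i).neg)
  have hI : ∀ i, IntegrableOn (fun x => u x * fderiv ℝ (fun y => F y i) x (Pi.single i 1)) (cube n) :=
    fun i => by
      obtain ⟨M, hM⟩ := hF.lipschitz i
      refine integrableOn_cube (hcu.measurable.mul (measurable_fderiv_apply_const ℝ _ _))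
        (C := B * M) fun x => ?_
      rw [abs_mul]
      exact mul_le_mul (hB x) (fderiv_single_abs_le hM x i) (abs_nonneg _) ((norm_nonneg _).trans (hB x))
  have hJ : ∀ i, IntegrableOn (fun x => -(fderiv ℝ u x (Pi.single i 1) * F x i)) (cube n) := fun i => by
    refine integrableOn_cube (((measurable_fderiv_apply_const ℝ _ _).mul
      (hF.coord i).continuous.measurable).neg) (C := K * 1) fun x => ?_
    rw [abs_neg, abs_mul]
    exact mul_le_mul (fderiv_single_abs_le hu x i) (hF.abs_le x i) (abs_nonneg _) K.2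
  refine ⟨?_, integrable_finsetSum _ fun i _ => hJ i⟩
  simp only [divergence, Finset.mul_sum]
  rw [integral_finsetSum _ fun i _ => hI i, integral_finsetSum _ fun i _ => hJ i]
  simp only [hint, integral_neg]

/-- The total variation of a Lipschitz function is at most the integral of its gradient. -/
theorem tvle_of_lipschitz {u : (Fin n → ℝ) → ℝ} {K : ℝ≥0} (hu : LipschitzWith K u)
    (hp : Periodic u) : TVLE u (∫ x in cube n, gradLen u x) := by
  intro F hF
  obtain ⟨e, hI⟩ := integral_mul_divergence hu hp hF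
  rw [e]
  refine integral_mono hI (integrableOn_cube (gradLen_measurable u) (gradLen_abs_le hu)) fun x => ?_
  have := Real.sum_mul_le_sqrt_mul_sqrt Finset.univ
    (fun i => -fderiv ℝ u x (Pi.single i 1)) (fun i => F x i)
  simp only [neg_mul, neg_sq] at this
  exact this.trans (mul_le_of_le_one_right (Real.sqrt_nonneg _) (Real.sqrt_le_one.2 (hF.sq_le x)))

end

end Vale.Agent.P232
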